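import Vale.Agent.P227.LogBM.Calc

/-!
# P227 Log3: the largest coordinate of an eigenvector is controlled by its norm
-/

namespace Vale.Agent.P227.Log3

open Vale.Agent.P227.Lp3 MeasureTheory Set Filter Finset Matrix
open scoped Topology

variable {N : ℕ} {u : Fin N → V3} {h z : Fin N → ℝ}

/-- A concave function stays below its tangent. -/
lemma le_tangent {A A1 A2 : ℝ → ℝ} {τ : ℝ} (hτ : 0 ≤ τ)
    (h1 : ∀ s ∈ Icc (0 : ℝ) τ, HasDerivAt A (A1 s) s)
    (h2 : ∀ s ∈ Icc (0 : ℝ) τ, HasDerivAt A1 (A2 s) s)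
    (h3 : ∀ s ∈ Icc (0 : ℝ) τ, A2 s ≤ 0) : A τ ≤ A 0 + τ * A1 0 := by
  have m1 : AntitoneOn A1 (Icc 0 τ) :=
    antitoneOn_of_hasDerivWithinAt_nonpos (convex_Icc 0 τ)
      (fun s hs => (h2 s hs).continuousAt.continuousWithinAt)
      (fun s hs => (h2 s (interior_subset hs)).hasDerivWithinAt)
      (fun s hs => h3 s (interior_subset hs))
  have m2 : AntitoneOn (fun s => A s - s * A1 0) (Icc 0 τ) := by
    refine antitoneOn_of_hasDerivWithinAt_nonpos (f' := fun s => A1 s - A1 0) (convex_Icc 0 τ)
      (fun s hs => ((h1 s hs).continuousAt.sub (by fun_prop)).continuousWithinAt)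
      (fun s hs => ?_) (fun s hs => ?_)
    · simpa using (((h1 s (interior_subset hs)).fun_sub
        ((hasDerivAt_id s).mul_const (A1 0))).hasDerivWithinAt (s := interior (Icc 0 τ)))
    · linarith [m1 (left_mem_Icc.2 hτ) (interior_subset hs) (interior_subset hs).1]
  have := m2 (left_mem_Icc.2 hτ) (right_mem_Icc.2 hτ) hτ
  simp only [zero_mul, sub_zero] at this
  linarith

/-- Comparison of derivatives at a common zero. -/
lemma deriv_le_of_le {F G : ℝ → ℝ} {a b : ℝ} (hF : HasDerivAt F a 0) (hG : HasDerivAt G b 0)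
    (h0 : F 0 = G 0) (hle : ∀ᶠ s in 𝓝[>] (0 : ℝ), F s ≤ G s) : a ≤ b := by
  refine le_of_tendsto_of_tendsto hF.tendsto_slope_zero_right hG.tendsto_slope_zero_right ?_
  filter_upwards [hle, self_mem_nhdsWithin] with s hs hpos
  simp only [zero_add, smul_eq_mul, h0]
  exact mul_le_mul_of_nonneg_left (by linarith) (inv_nonneg.2 (le_of_lt hpos))

lemma hasDerivAt_mul_continuousAt {F : ℝ → ℝ} (hF : ContinuousAt F 0) :
    HasDerivAt (fun t => t * F t) (F 0) 0 := by
  rw [hasDerivAt_iff_tendsto_slope]
  refine (hF.tendsto.mono_left nhdsWithin_le_nhds).congr' ?_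
  filter_upwards [self_mem_nhdsWithin] with t ht
  rw [slope_def_field]
  field_simp [show t ≠ 0 from ht]
  ring

/-- A second order bound from one side. -/
lemma second_le {Θ P : ℝ → ℝ} {H c : ℝ} (hd : ∀ᶠ t in 𝓝 (0 : ℝ), HasDerivAt Θ (P t) t)
    (hP : HasDerivAt P H 0) (hP0 : P 0 = 0)
    (hle : ∀ᶠ t in 𝓝[>] (0 : ℝ), Θ t ≤ Θ 0 + c * t ^ 2) : H ≤ 2 * c := by
  by_contra hlt
  push Not at hlt
  have h1 : ∀ᶠ t in 𝓝[>] (0 : ℝ), 2 * c * t < P t := by
    filter_upwards [hP.tendsto_slope_zero_right.eventually (lt_mem_nhds hlt), self_mem_nhdsWithin]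
      with t ht hpos
    simp only [zero_add, hP0, sub_zero, smul_eq_mul] at ht
    have hpos' : (0 : ℝ) < t := hpos
    rwa [inv_mul_eq_div, lt_div_iff₀ hpos'] at ht
  obtain ⟨η, hη, hball⟩ := Metric.eventually_nhds_iff.1 hd
  obtain ⟨b, hb, hI⟩ := mem_nhdsGT_iff_exists_Ioo_subset.1 (inter_mem h1 hle)
  set t := min b η / 2 with htdef
  have hb' : (0 : ℝ) < b := hb
  have ht : 0 < t := by positivity
  have htb : t < b := by have := min_le_left b η; linarith
  have htη : t < η := by have := min_le_right b η; linarith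
  have hder : ∀ s ∈ Icc (0 : ℝ) t, HasDerivAt Θ (P s) s := fun s hs => hball (by
    rw [Real.dist_eq, sub_zero, abs_of_nonneg hs.1]; linarith [hs.2])
  have hmono : StrictMonoOn (fun s => Θ s - c * s ^ 2) (Icc 0 t) := by
    refine strictMonoOn_of_hasDerivWithinAt_pos (f' := fun s => P s - c * (2 * s)) (convex_Icc 0 t)
      (fun s hs => ((hder s hs).continuousAt.sub (by fun_prop)).continuousWithinAt)
      (fun s hs => ?_) (fun s hs => ?_)
    · simpa using (((hder s (interior_subset hs)).fun_sub
        ((hasDerivAt_pow 2 s).const_mul c)).hasDerivWithinAt (s := interior (Icc 0 t)))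
    · rw [interior_Icc] at hs
      have : 2 * c * s < P s := (hI ⟨hs.1, hs.2.trans htb⟩).1
      linarith
  have h2 := hmono (left_mem_Icc.2 ht.le) (right_mem_Icc.2 ht.le) ht
  have h3 : Θ t ≤ Θ 0 + c * t ^ 2 := (hI ⟨ht, htb⟩).2
  simp at h2
  linarith

lemma dirW_left (u : Fin N → V3) (j k : Fin N) : dirW u j k j = 0 := by simp [dirW, det3]

lemma dirW_right (u : Fin N → V3) (j k : Fin N) : dirW u j k k = 0 := by
  simp [dirW, det3]

lemma dirW_nonneg (u : Fin N → V3) (j k l : Fin N) : 0 ≤ dirW u j k l := abs_nonneg _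

lemma dirW_pos (hu : GenPos u) {j k l : Fin N} (h1 : j ≠ k) (h2 : j ≠ l) (h3 : k ≠ l) :
    0 < dirW u j k l := abs_pos.2 (hu.2 j k l h1 h2 h3)

lemma exists_ne_ne (hu : GenPos u) (j k : Fin N) : ∃ l, l ≠ j ∧ l ≠ k := by
  by_contra hcon
  push Not at hcon
  have : (Finset.univ : Finset (Fin N)) ⊆ {j, k} := fun l _ => by
    rcases eq_or_ne l j with h | h
    · simp [h]
    · simp [hcon l h]
  have := (Finset.card_le_card this).trans (Finset.card_le_two)
  simp at this
  have := hu.1
  omega

section Apriori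

variable (gf : GeomFacts u) (df : DirFacts u)

include gf df

/-- The largest admissible multiple of the segment carries at least the volume. -/
lemma vol_le_dir (hu : GenPos u) (hp : Pos h) {j k : Fin N} (hjk : j ≠ k) :
    ∃ c : ℝ, 0 < c ∧ (∀ l, c * dirW u j k l ≤ h l) ∧ vol u h ≤ c * form1 u h (dirW u j k) := by
  set d := dirW u j k with hd
  obtain ⟨l0, hl0j, hl0k⟩ := exists_ne_ne hu j k
  have hpos : ∀ l, l ≠ j → l ≠ k → 0 < d l := fun l a b => dirW_pos hu hjk a.symm b.symm
  obtain ⟨i, hi, hmin⟩ := ((Finset.univ.erase j).erase k).exists_min_image (fun l => h l / d l)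
    ⟨l0, by simp [hl0j, hl0k]⟩
  simp only [Finset.mem_erase, Finset.mem_univ, and_true] at hi
  have hdi := hpos i hi.2 hi.1
  set c := h i / d i with hc
  have hc0 : 0 < c := div_pos (hp i) hdi
  have hle : ∀ l, c * d l ≤ h l := by
    intro l
    rcases eq_or_ne l j with rfl | hlj
    · simp [hd, dirW_left, (hp _).le]
    rcases eq_or_ne l k with rfl | hlk
    · simp [hd, dirW_right, (hp _).le]
    have := hmin l (by simp [hlj, hlk])
    rwa [le_div_iff₀ (hpos l hlj hlk)] at this
  refine ⟨c, hc0, hle, ?_⟩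
  have hP : ∀ s ∈ Ico (0 : ℝ) c, Pos (h + s • -d) := by
    intro s hs l
    simp only [Pi.add_apply, Pi.smul_apply, Pi.neg_apply, smul_eq_mul]
    rcases (dirW_nonneg u j k l).eq_or_lt with e | e
    · simp [hd, ← e, hp l]
    · have h2 := mul_lt_mul_of_pos_right hs.2 e
      have h3 := hle l
      rw [hd] at h3 ⊢
      linarith
  set D := form1 u h d with hD
  have key : ∀ σ ∈ Ico (0 : ℝ) c, vol u h ≤ vol u (h + σ • -d) + σ * D := by
    intro σ hσ
    have hsub : Icc (0 : ℝ) σ ⊆ Ico 0 c := fun s hs => ⟨hs.1, hs.2.trans_lt hσ.2⟩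
    have := le_tangent (A := fun s => -vol u (h + s • -d))
      (A1 := fun s => form1 u (h + s • -d) d)
      (A2 := fun s => -form2 u (h + s • -d) d d) hσ.1
      (fun s hs => by
        refine (hasDerivAt_vol_ray gf (hP s (hsub hs))).neg.congr_deriv ?_
        simp [form1])
      (fun s hs => by
        refine (hasDerivAt_form1_ray gf (hP s (hsub hs)) d).congr_deriv ?_
        simp [form2, Finset.sum_neg_distrib])
      (fun s hs => by
        rw [neg_nonpos, form2_eq]
        exact Finset.sum_nonneg fun l _ =>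
          mul_nonneg (dirW_nonneg u j k l) (df.hess_dir _ (hP s (hsub hs)) j k hjk l))
    simp only [zero_smul, add_zero] at this
    linarith
  obtain ⟨p, hpi, -⟩ := exists_ne_ne hu i i
  obtain ⟨q, hqi, hqp⟩ := exists_ne_ne hu i p
  obtain ⟨C, hC⟩ := gf.vol_le_box i p q hpi.symm hqi.symm hqp.symm
  have hCpos : 0 < C := by
    have h1 := (gf.vol_pos h hp).trans_le (hC h hp)
    by_contra hn
    push Not at hn
    have := mul_nonpos_of_nonpos_of_nonneg hn (mul_pos (mul_pos (hp i) (hp p)) (hp q)).le
    linarith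
  have hbd : ∀ σ ∈ Ico (0 : ℝ) c, vol u h ≤ C * ((c - σ) * d i * h p * h q) + c * D := by
    intro σ hσ
    have h0 := hP σ hσ
    have hD0 : 0 ≤ D := Finset.sum_nonneg fun l _ =>
      mul_nonneg (gf.area_nonneg h hp l) (dirW_nonneg u j k l)
    have hb : ∀ l, (h + σ • -d) l ≤ h l := fun l => by
      have := mul_nonneg hσ.1 (dirW_nonneg u j k l)
      simp only [Pi.add_apply, Pi.smul_apply, Pi.neg_apply, smul_eq_mul, hd]
      linarith
    have hi' : (h + σ • -d) i = (c - σ) * d i := by
      simp only [Pi.add_apply, Pi.smul_apply, Pi.neg_apply, smul_eq_mul, hc, sub_mul,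
        div_mul_cancel₀ _ hdi.ne']
      ring
    have h1 := key σ hσ
    have h2 := hC _ h0
    have h3 : (h + σ • -d) i * (h + σ • -d) p * (h + σ • -d) q ≤ (c - σ) * d i * h p * h q := by
      rw [hi']
      have hnn : 0 ≤ (c - σ) * d i := mul_nonneg (by linarith [hσ.2]) hdi.le
      exact mul_le_mul (mul_le_mul_of_nonneg_left (hb p) hnn) (hb q) (h0 q).le
        (mul_nonneg hnn (hp p).le)
    have h4 := mul_le_mul_of_nonneg_left h3 hCpos.le
    have h5 := mul_le_mul_of_nonneg_right hσ.2.le hD0
    linarith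
  have htend : Tendsto (fun σ => C * ((c - σ) * d i * h p * h q) + c * D) (𝓝[<] c) (𝓝 (c * D)) := by
    have : Continuous fun σ => C * ((c - σ) * d i * h p * h q) + c * D := by fun_prop
    exact (this.tendsto' c _ (by simp)).mono_left nhdsWithin_le_nhds
  refine ge_of_tendsto htend ?_
  filter_upwards [Ioo_mem_nhdsLT hc0] with σ hσ using hbd σ ⟨hσ.1.le, hσ.2⟩

/-- Along perturbations fixing an active pair the removed area is concave. -/
lemma dir_tangent (hp : Pos h) {j k : Fin N} (hjk : j ≠ k) (hj : 0 < area u h j)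
    {w : Fin N → ℝ} (hw : w j = 0) :
    ∀ᶠ τ in 𝓝[>] (0 : ℝ), form1 u (h + τ • w) (dirW u j k) ≤
      form1 u h (dirW u j k) + τ * form2 u h w (dirW u j k) := by
  set d := dirW u j k with hd
  have hev : ∀ᶠ p : ℝ × ℝ in 𝓝 0, Pos (h + p.1 • w - p.2 • d) ∧
      0 < area u (h + p.1 • w - p.2 • d) j := by
    have hc : Continuous fun p : ℝ × ℝ => h + p.1 • w - p.2 • d := by fun_prop
    have ht : Tendsto (fun p : ℝ × ℝ => h + p.1 • w - p.2 • d) (𝓝 0) (𝓝 h) :=
      hc.tendsto' 0 h (by simp)
    refine (eventually_all.2 fun i => ?_).and ?_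
    · exact ((continuous_apply i).continuousAt.tendsto.comp ht).eventually (lt_mem_nhds (hp i))
    · exact ((area_continuousAt gf hp j).tendsto.comp ht).eventually (lt_mem_nhds hj)
  obtain ⟨η, hη, hball⟩ := Metric.eventually_nhds_iff.1 hev
  have hin : ∀ s e : ℝ, |s| < η → |e| < η →
      Pos (h + s • w - e • d) ∧ 0 < area u (h + s • w - e • d) j := fun s e hs he =>
    hball (y := (s, e)) (by simp [Prod.norm_def, hs, he])
  filter_upwards [Ioo_mem_nhdsGT hη] with τ hτ
  have hP1 : ∀ s ∈ Icc (0 : ℝ) τ, Pos (h + s • w) := fun s hs => by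
    have := (hin s 0 (by rw [abs_of_nonneg hs.1]; linarith [hs.2, hτ.2]) (by simpa using hη)).1
    simpa using this
  have hineq : ∀ e ∈ Ioo (0 : ℝ) η, vol u (h + τ • w) - vol u (h + τ • w + e • -d) ≤
      vol u h - vol u (h + e • -d) + τ * (form1 u h w - form1 u (h + e • -d) w) := by
    intro e he
    have hP2 : ∀ s ∈ Icc (0 : ℝ) τ, Pos (h + e • -d + s • w) ∧
        0 < area u (h + e • -d + s • w) j := fun s hs => by
      have := hin s e (by rw [abs_of_nonneg hs.1]; linarith [hs.2, hτ.2])
        (by rw [abs_of_pos he.1]; exact he.2)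
      rwa [show h + e • -d + s • w = h + s • w - e • d by rw [smul_neg]; abel]
    have := le_tangent (A := fun s => vol u (h + s • w) - vol u (h + e • -d + s • w))
      (A1 := fun s => form1 u (h + s • w) w - form1 u (h + e • -d + s • w) w)
      (A2 := fun s => form2 u (h + s • w) w w - form2 u (h + e • -d + s • w) w w) hτ.1.le
      (fun s hs => (hasDerivAt_vol_ray gf (hP1 s hs)).sub
        (hasDerivAt_vol_ray gf (hP2 s hs).1))
      (fun s hs => (hasDerivAt_form1_ray gf (hP1 s hs) w).sub
        (hasDerivAt_form1_ray gf (hP2 s hs).1 w))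
      (fun s hs => by
        have e1 : h + e • -d + s • w = h + s • w - e • d := by rw [smul_neg]; abel
        have h2 := hP2 s hs
        rw [e1] at h2 ⊢
        linarith [df.form2_mono _ (hP1 s hs) j k hjk e he.1.le h2.1 h2.2 w hw])
    simp only [zero_smul, add_zero] at this
    rwa [show h + τ • w + e • -d = h + e • -d + τ • w by abel]
  have hq : Pos (h + τ • w + (0 : ℝ) • -d) := by simpa using hP1 τ ⟨hτ.1.le, le_rfl⟩
  have hh : Pos (h + (0 : ℝ) • -d) := by simpa using hp
  have d1 := (hasDerivAt_vol_ray gf hq).const_sub (vol u (h + τ • w))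
  have d2 := ((hasDerivAt_vol_ray gf hh).const_sub (vol u h)).add
    (((hasDerivAt_form1_ray gf hh w).const_sub (form1 u h w)).const_mul τ)
  have := deriv_le_of_le d1 d2 (by simp) (by
    filter_upwards [Ioo_mem_nhdsGT hη] with e he using hineq e he)
  simp only [zero_smul, add_zero] at this
  simpa [form1, form2, Finset.sum_neg_distrib] using this

variable (bm : BMFacts u)

include bm

/-- The largest coordinate of an eigenvector is controlled by its norm. -/
theorem apriori (hu : GenPos u) (hp : Pos h) {x : ℝ} (hx : 0 ≤ x)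
    (hz : ∀ i, area u h i = 0 → z i = 0) (hF : form1 u h z = 0)
    (he : ∀ v, form2 u h z v = -x * wdot u h z v) {j : Fin N} (hj : z j ≠ 0)
    (hmax : ∀ i, |z i / h i| ≤ |z j / h j|) :
    2 * (z j / h j) ^ 2 * vol u h * (1 - x) ≤ (x + x ^ 2 / 2) * wdot u h z z := by
  set f := z j / h j with hf
  set M := |f| with hM
  have hfM : f ≤ M := le_abs_self _
  -- lift the inactive pairs
  set y : Fin N → ℝ := fun i => if area u h i = 0 then M * h i else z i with hy
  have hyz : ∀ i, area u h i * y i = area u h i * z i := fun i => by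
    by_cases e : area u h i = 0 <;> simp [hy, e]
  have hhy : ∀ l, hv u h y l = hv u h z l := fun l => by
    simp only [hv]
    refine Finset.sum_congr rfl fun i _ => ?_
    by_cases e : area u h i = 0
    · rw [gf.hess_symm h hp, hess_row_eq_zero gf hp e]; ring
    · simp [hy, e]
  have hhv : ∀ l, hv u h y l = -x * (area u h l * y l / h l) := fun l => by
    rw [hhy, hv_eigen gf hp he, hyz]
  have hFy : form1 u h y = 0 := by
    rw [← hF]; exact Finset.sum_congr rfl fun i _ => hyz i
  have hSy : wdot u h y y = wdot u h z z := by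
    refine Finset.sum_congr rfl fun i _ => ?_
    by_cases e : area u h i = 0 <;> simp [hy, e]
  have hyb : ∀ i, |y i| ≤ M * h i := fun i => by
    by_cases e : area u h i = 0
    · simp [hy, e, abs_mul, hM, abs_of_pos (hp i)]
    · have := hmax i
      rw [abs_div, abs_of_pos (hp i), div_le_iff₀ (hp i)] at this
      simpa [hy, e, hM] using this
  have haj : 0 < area u h j := area_pos_of_ne gf hp hz hj
  have hyj : y j = f * h j := by simp [hy, haj.ne', hf, div_mul_cancel₀ _ (hp j).ne']
  obtain ⟨k, hkj, -⟩ := exists_ne_ne hu j j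
  obtain ⟨c, hc, hcd, hV⟩ := vol_le_dir gf df hu hp hkj.symm
  set d := dirW u j k with hd
  set w := y + (-f) • h with hw
  have hwj : w j = 0 := by simp [hw, hyj]
  set D := form1 u h d with hD
  set δ := form2 u h y d with hδ
  have hwd : form2 u h w d = δ - 2 * f * D := by
    rw [hw, form2_add_left, form2_comm gf hp h d, form2_euler gf hp, hδ]; ring
  set r : Fin N → ℝ := fun i => h i - c * d i with hr
  have hr0 : ∀ i, 0 ≤ r i := fun i => sub_nonneg.2 (hcd i)
  set sy : Fin N → ℝ := fun i => y i / h i with hsy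
  set A := ∑ i, r i * area u h i with hA
  set A1 := ∑ i, r i * area u h i * sy i with hA1
  set A2 := ∑ i, r i * area u h i * sy i ^ 2 with hA2
  set Cc := c * (f * δ - f ^ 2 * D) + x ^ 2 / 4 * A2 with hCc
  have hsplit : ∀ g : Fin N → ℝ, form1 u g h = c * form1 u g d + ∑ i, r i * area u g i := fun g => by
    simp only [form1, Finset.mul_sum, ← Finset.sum_add_distrib, hr]
    exact Finset.sum_congr rfl fun i _ => by ring
  have hδ' : δ = -x * ∑ i, d i * area u h i * sy i := by
    rw [hδ, form2_comm gf hp, form2_eq, Finset.mul_sum]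
    exact Finset.sum_congr rfl fun i _ => by rw [hhv, hsy]; ring
  have hlin : c * δ - x * A1 = 0 := by
    rw [hδ', hA1]
    have : c * ∑ i, d i * area u h i * sy i + ∑ i, r i * area u h i * sy i = form1 u h y := by
      simp only [form1, Finset.mul_sum, ← Finset.sum_add_distrib, hr, hsy]
      exact Finset.sum_congr rfl fun i _ => by field_simp [(hp i).ne']; ring
    rw [hFy] at this
    linear_combination (-x) * this
  have hP0 : ∀ᶠ t in 𝓝 (0 : ℝ), Pos (h + t • y) := pos_eventually hp y
  -- the second derivative of the Euler sum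
  have hd1 : ∀ᶠ t in 𝓝 (0 : ℝ), HasDerivAt (fun t => form1 u (h + t • y) h)
      (2 * form1 u (h + t • y) y - t * form2 u (h + t • y) y y) t := by
    filter_upwards [hP0] with t ht
    refine (hasDerivAt_form1_ray gf ht h).congr_deriv ?_
    have h1 := form2_euler gf ht y
    rw [form2_add_right] at h1
    rw [form2_comm gf ht h y]
    linarith
  have hd2 : HasDerivAt (fun t => 2 * form1 u (h + t • y) y - t * form2 u (h + t • y) y y)
      (form2 u h y y) 0 := by
    have hp' : Pos (h + (0 : ℝ) • y) := by simpa using hp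
    have hc : ContinuousAt (fun t : ℝ => form2 u (h + t • y) y y) 0 := by
      simp only [form2]
      refine tendsto_finsetSum _ fun i _ => tendsto_finsetSum _ fun l _ => ?_
      have h1 : ContinuousAt (fun t : ℝ => hess u (h + t • y) i l) 0 :=
        ContinuousAt.comp (g := fun g => hess u g i l) (hess_continuousAt gf hp' i l) (by fun_prop)
      exact (h1.mul continuousAt_const).mul continuousAt_const
    refine (((hasDerivAt_form1_ray gf hp' y).const_mul 2).sub
      (hasDerivAt_mul_continuousAt hc)).congr_deriv ?_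
    simp only [zero_smul, add_zero]; ring
  have hareas : ∀ i, ∀ᶠ t in 𝓝[>] (0 : ℝ),
      area u (h + t • y) i ≤ area u h i * (1 - t * x * sy i / 2) ^ 2 := by
    intro i
    by_cases e : area u h i = 0
    · filter_upwards [hP0.filter_mono nhdsWithin_le_nhds, self_mem_nhdsWithin] with t ht htpos
      have htp : (0 : ℝ) < t := htpos
      set q : Fin N → ℝ := fun l => t * (M * h l - y l) with hq
      have hq0 : ∀ l, 0 ≤ q l := fun l =>
        mul_nonneg htp.le (sub_nonneg.2 ((le_abs_self _).trans (hyb l)))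
      have hqi : q i = 0 := by simp [hq, hy, e]
      have hPσ : ∀ σ ∈ Icc (0 : ℝ) 1, Pos (h + t • y + σ • q) := fun σ hσ l => by
        have h1 := mul_nonneg hσ.1 (hq0 l)
        have h2 := ht l
        simp only [Pi.add_apply, Pi.smul_apply, smul_eq_mul] at h2 ⊢
        linarith
      have hmono : MonotoneOn (fun σ : ℝ => area u (h + t • y + σ • q) i) (Icc 0 1) := by
        refine monotoneOn_of_hasDerivWithinAt_nonneg (f' := fun σ => hv u (h + t • y + σ • q) q i)
          (convex_Icc 0 1)
          (fun σ hσ => (hasDerivAt_area_ray gf (hPσ σ hσ) i).continuousAt.continuousWithinAt)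
          (fun σ hσ => (hasDerivAt_area_ray gf (hPσ σ (interior_subset hσ)) i).hasDerivWithinAt)
          (fun σ hσ => Finset.sum_nonneg fun l _ => ?_)
        rcases eq_or_ne i l with rfl | hil
        · simp [hqi]
        · exact mul_nonneg (gf.hess_nonneg _ (hPσ σ (interior_subset hσ)) i l hil) (hq0 l)
      have h01 := hmono (left_mem_Icc.2 zero_le_one) (right_mem_Icc.2 zero_le_one) zero_le_one
      have e1 : h + t • y + (1 : ℝ) • q = (1 + t * M) • h := by
        ext l; simp [hq]; ring
      simp only [zero_smul, add_zero, e1] at h01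
      rw [gf.area_hom h hp _ (by
        have := mul_nonneg htp.le (hM.symm ▸ abs_nonneg f : 0 ≤ M)
        linarith) i, e, mul_zero] at h01
      simpa [e] using h01
    · have hpos : 0 < area u h i := lt_of_le_of_ne (gf.area_nonneg h hp i) (Ne.symm e)
      have hp' : Pos (h + (0 : ℝ) • y) := by simpa using hp
      have hev : ∀ᶠ t in 𝓝 (0 : ℝ), Pos (h + t • y) ∧ 0 < area u (h + t • y) i :=
        hP0.and ((hasDerivAt_area_ray gf hp' i).continuousAt.eventually_const_lt
          (by simpa using hpos))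
      have hder : HasDerivAt (fun s : ℝ => Real.sqrt (area u (h + s • y) i))
          (hv u h y i / (2 * Real.sqrt (area u h i))) 0 := by
        simpa using (hasDerivAt_area_ray gf hp' i).sqrt (by simpa using e)
      filter_upwards [hev.filter_mono nhdsWithin_le_nhds, self_mem_nhdsWithin] with t ht htpos
      have htp : (0 : ℝ) < t := htpos
      set g0 := Real.sqrt (area u h i) with hg0
      set gt := Real.sqrt (area u (h + t • y) i) with hgt
      have hlin : HasDerivAt (fun s : ℝ => g0 + s * ((gt - g0) / t)) ((gt - g0) / t) 0 := by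
        simpa using ((hasDerivAt_id (0 : ℝ)).mul_const ((gt - g0) / t)).const_add g0
      have hs : (gt - g0) / t ≤ hv u h y i / (2 * g0) := by
        refine deriv_le_of_le hlin hder (by simp [hg0]) ?_
        filter_upwards [Ioo_mem_nhdsGT htp] with s hs
        have := (bm.area_concave i).2 (⟨hp, hpos⟩ : h ∈ {g | Pos g ∧ 0 < area u g i})
          (ht : h + t • y ∈ {g | Pos g ∧ 0 < area u g i}) (show (0:ℝ) ≤ 1 - s / t by rw [sub_nonneg, div_le_one htp]; exact hs.2.le)
          (show (0:ℝ) ≤ s / t from div_nonneg hs.1.le htp.le) (by ring)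
        have e2 : (1 - s / t) • h + (s / t) • (h + t • y) = h + s • y := by
          ext l; simp only [Pi.add_apply, Pi.smul_apply, smul_eq_mul]; field_simp; ring
        rw [e2] at this
        refine le_trans (le_of_eq ?_) this
        simp only [smul_eq_mul, ← hg0, ← hgt]; field_simp; ring
      have hg0p : 0 < g0 := Real.sqrt_pos.2 hpos
      have hg2 : area u h i = g0 ^ 2 := (Real.sq_sqrt hpos.le).symm
      have hb : gt ≤ g0 * (1 - t * x * sy i / 2) := by
        have e3 : hv u h y i / (2 * g0) = -x * g0 * sy i / 2 := by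
          rw [hhv, hg2, hsy]; field_simp [hg0p.ne']
        rw [e3, div_le_iff₀ htp] at hs
        linarith
      calc area u (h + t • y) i = gt ^ 2 := (Real.sq_sqrt ht.2.le).symm
        _ ≤ (g0 * (1 - t * x * sy i / 2)) ^ 2 := by
            exact pow_le_pow_left₀ (Real.sqrt_nonneg _) hb 2
        _ = _ := by rw [mul_pow, hg2]
  have hsmall : Tendsto (fun t : ℝ => t / (1 + t * f)) (𝓝[>] (0 : ℝ)) (𝓝[>] (0 : ℝ)) := by
    have hpos : ∀ᶠ t in 𝓝 (0 : ℝ), 0 < 1 + t * f :=
      (by fun_prop : Continuous fun t : ℝ => 1 + t * f).continuousAt.eventually_const_lt (by simp)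
    refine tendsto_nhdsWithin_iff.2 ⟨?_, ?_⟩
    · have : ContinuousAt (fun t : ℝ => t / (1 + t * f)) 0 :=
        continuousAt_id.div (by fun_prop) (by simp)
      simpa using this.tendsto.mono_left nhdsWithin_le_nhds
    · filter_upwards [hpos.filter_mono nhdsWithin_le_nhds, self_mem_nhdsWithin] with t h1 h2
      exact div_pos h2 h1
  have hpos : ∀ᶠ t in 𝓝[>] (0 : ℝ), 0 < 1 + t * f :=
    ((by fun_prop : Continuous fun t : ℝ => 1 + t * f).continuousAt.eventually_const_lt
      (by simp)).filter_mono nhdsWithin_le_nhds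
  have hposw : ∀ᶠ t in 𝓝[>] (0 : ℝ), Pos (h + (t / (1 + t * f)) • w) :=
    hsmall.eventually ((pos_eventually hp w).filter_mono nhdsWithin_le_nhds)
  have hbound : ∀ᶠ t in 𝓝[>] (0 : ℝ), form1 u (h + t • y) h ≤ form1 u h h + Cc * t ^ 2 := by
    filter_upwards [hpos, hposw, hsmall.eventually (dir_tangent gf df hp hkj.symm haj hwj),
      eventually_all.2 hareas] with t h1 h2 h3 h4
    set τ := t / (1 + t * f) with hτ
    have e1 : h + t • y = (1 + t * f) • (h + τ • w) := by
      ext l
      simp only [hw, Pi.add_apply, Pi.smul_apply, smul_eq_mul, hτ]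
      field_simp; ring
    have e2 : form1 u (h + t • y) d = (1 + t * f) ^ 2 * form1 u (h + τ • w) d := by
      simp only [form1, Finset.mul_sum, e1]
      exact Finset.sum_congr rfl fun i _ => by rw [gf.area_hom _ h2 _ h1]; ring
    have e3 : form1 u (h + t • y) d ≤ (1 + t * f) ^ 2 * D + t * (1 + t * f) * (δ - 2 * f * D) := by
      rw [e2]
      refine (mul_le_mul_of_nonneg_left h3 (sq_nonneg _)).trans (le_of_eq ?_)
      rw [hwd, hτ]; simp only [hD, hd]; field_simp
    have e4 : ∑ i, r i * area u (h + t • y) i ≤ A - t * (x * A1) + t ^ 2 * (x ^ 2 / 4 * A2) := by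
      refine (Finset.sum_le_sum fun i _ => mul_le_mul_of_nonneg_left (h4 i) (hr0 i)).trans
        (le_of_eq ?_)
      simp only [hA, hA1, hA2, Finset.mul_sum, ← Finset.sum_sub_distrib, ← Finset.sum_add_distrib]
      exact Finset.sum_congr rfl fun i _ => by ring
    rw [hsplit, hsplit h, ← hD, ← hA, hCc]
    have := mul_le_mul_of_nonneg_left e3 hc.le
    linear_combination this + e4 + t * hlin
  have h2 := second_le (c := Cc) hd1 hd2 (by simp [hFy]) (by simpa using hbound)
  have hH : form2 u h y y = -x * wdot u h z z := by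
    rw [← hSy, form2_eq, wdot, Finset.mul_sum]
    exact Finset.sum_congr rfl fun i _ => by rw [hhv]; ring
  have hA2S : A2 ≤ wdot u h z z := by
    rw [← hSy, hA2]
    refine Finset.sum_le_sum fun i _ => ?_
    have hri : r i ≤ h i := by
      have := mul_nonneg hc.le (dirW_nonneg u j k i)
      simp only [hr, hd]; linarith
    refine (mul_le_mul_of_nonneg_right (mul_le_mul_of_nonneg_right hri (gf.area_nonneg h hp i))
      (sq_nonneg _)).trans (le_of_eq ?_)
    simp only [hsy]; field_simp [(hp i).ne']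
  have hfδ : f * δ ≤ x * f ^ 2 * D := by
    rw [hδ', hD, form1, show x * f ^ 2 * ∑ i, area u h i * d i =
      x * ∑ i, f ^ 2 * (area u h i * d i) by rw [← Finset.mul_sum]; ring,
      show f * (-x * ∑ i, d i * area u h i * sy i) = x * ∑ i, -f * sy i * (area u h i * d i) by
        simp only [Finset.mul_sum]; exact Finset.sum_congr rfl fun i _ => by ring]
    refine mul_le_mul_of_nonneg_left (Finset.sum_le_sum fun i _ => ?_) hx
    refine mul_le_mul_of_nonneg_right ?_
      (mul_nonneg (gf.area_nonneg h hp i) (dirW_nonneg u j k i))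
    have hs : |sy i| ≤ M := by
      simp only [hsy, abs_div, abs_of_pos (hp i), div_le_iff₀ (hp i)]
      exact hyb i
    calc -f * sy i ≤ |-f * sy i| := le_abs_self _
      _ = |f| * |sy i| := by rw [abs_mul, abs_neg]
      _ ≤ |f| * |f| := mul_le_mul_of_nonneg_left hs (abs_nonneg _)
      _ = f ^ 2 := by rw [abs_mul_abs_self]; ring
  rw [hH] at h2
  by_cases hx1 : x ≤ 1
  · have k1 := mul_le_mul_of_nonneg_left hA2S (by positivity : 0 ≤ x ^ 2 / 2)
    have k2 := mul_le_mul_of_nonneg_left hfδ hc.le
    have k3 := mul_le_mul_of_nonneg_left hV (mul_nonneg (mul_nonneg zero_le_two (sq_nonneg f))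
      (sub_nonneg.2 hx1))
    linear_combination h2 + k1 + 2 * k2 + k3
  · push Not at hx1
    have k1 : 2 * f ^ 2 * vol u h * (1 - x) ≤ 0 := mul_nonpos_of_nonneg_of_nonpos
      (mul_nonneg (mul_nonneg zero_le_two (sq_nonneg f)) (gf.vol_pos h hp).le) (by linarith)
    have k2 := mul_nonneg (by positivity : 0 ≤ x + x ^ 2 / 2) (wdot_nonneg gf hp z)
    linarith

end Apriori

end Vale.Agent.P227.Log3
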