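import Vale.Agent.P227.LogBM.Spec

/-!
# P227 Log3: calculus of the volume along lines, eigenvectors of the local problem
-/

namespace Vale.Agent.P227.Log3

open Vale.Agent.P227.Lp3 MeasureTheory Set Filter Finset Matrix
open scoped Topology

variable {N : ℕ} {u : Fin N → V3} {h z : Fin N → ℝ}

/-- The weighted inner product `⟨a / h, b / h⟩` of the cone measure. -/
noncomputable def wdot (u : Fin N → V3) (h a b : Fin N → ℝ) : ℝ :=
  ∑ i, area u h i * a i * b i / h i

/-- The action of the Hessian. -/
noncomputable def hv (u : Fin N → V3) (h z : Fin N → ℝ) (i : Fin N) : ℝ := ∑ l, hess u h i l * z l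

lemma wdot_self (u : Fin N → V3) (h z : Fin N → ℝ) :
    wdot u h z z = ∑ i, area u h i * z i ^ 2 / h i :=
  Finset.sum_congr rfl fun i _ => by ring

lemma varForm_eq (u : Fin N → V3) (h z : Fin N → ℝ) :
    varForm u h z = wdot u h z z - form1 u h z ^ 2 / (3 * vol u h) := by
  rw [wdot_self]; rfl

lemma form2_eq (u : Fin N → V3) (h a b : Fin N → ℝ) :
    form2 u h a b = ∑ i, a i * hv u h b i := by
  simp only [form2, hv, Finset.mul_sum]
  exact Finset.sum_congr rfl fun i _ => Finset.sum_congr rfl fun l _ => by ring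

lemma hv_add (u : Fin N → V3) (h a b : Fin N → ℝ) (t : ℝ) (i : Fin N) :
    hv u h (a + t • b) i = hv u h a i + t * hv u h b i := by
  simp only [hv, Pi.add_apply, Pi.smul_apply, smul_eq_mul, Finset.mul_sum, ← Finset.sum_add_distrib]
  exact Finset.sum_congr rfl fun l _ => by ring

lemma form2_add_right (u : Fin N → V3) (h c a b : Fin N → ℝ) (t : ℝ) :
    form2 u h c (a + t • b) = form2 u h c a + t * form2 u h c b := by
  simp only [form2_eq, hv_add, Finset.mul_sum, ← Finset.sum_add_distrib]
  exact Finset.sum_congr rfl fun i _ => by ring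

lemma form2_add_left (u : Fin N → V3) (h c a b : Fin N → ℝ) (t : ℝ) :
    form2 u h (a + t • b) c = form2 u h a c + t * form2 u h b c := by
  simp only [form2_eq, Pi.add_apply, Pi.smul_apply, smul_eq_mul, Finset.mul_sum,
    ← Finset.sum_add_distrib]
  exact Finset.sum_congr rfl fun i _ => by ring

lemma form1_add (u : Fin N → V3) (h a b : Fin N → ℝ) (t : ℝ) :
    form1 u h (a + t • b) = form1 u h a + t * form1 u h b := by
  simp only [form1, Pi.add_apply, Pi.smul_apply, smul_eq_mul, Finset.mul_sum,
    ← Finset.sum_add_distrib]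
  exact Finset.sum_congr rfl fun i _ => by ring

lemma wdot_add_self (u : Fin N → V3) (h a b : Fin N → ℝ) (t : ℝ) :
    wdot u h (a + t • b) (a + t • b) =
      wdot u h a a + 2 * t * wdot u h a b + t ^ 2 * wdot u h b b := by
  simp only [wdot, Pi.add_apply, Pi.smul_apply, smul_eq_mul, Finset.mul_sum,
    ← Finset.sum_add_distrib]
  exact Finset.sum_congr rfl fun i _ => by ring

section Geom

variable (gf : GeomFacts u)

include gf

lemma form2_comm (hp : Pos h) (a b : Fin N → ℝ) : form2 u h a b = form2 u h b a := by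
  simp only [form2]
  rw [Finset.sum_comm]
  exact Finset.sum_congr rfl fun i _ => Finset.sum_congr rfl fun l _ => by
    rw [gf.hess_symm h hp l i]; ring

lemma form2_add_self (hp : Pos h) (a b : Fin N → ℝ) (t : ℝ) :
    form2 u h (a + t • b) (a + t • b) =
      form2 u h a a + 2 * t * form2 u h a b + t ^ 2 * form2 u h b b := by
  rw [form2_add_right, form2_add_left, form2_add_left, form2_comm gf hp b a]
  ring

lemma form2_euler (hp : Pos h) (a : Fin N → ℝ) : form2 u h a h = 2 * form1 u h a := by
  simp only [form2_eq, hv, gf.euler_area h hp, form1, Finset.mul_sum]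
  exact Finset.sum_congr rfl fun i _ => by ring

lemma form1_self (hp : Pos h) : form1 u h h = 3 * vol u h := gf.euler_vol h hp

lemma form2_self (hp : Pos h) : form2 u h h h = 6 * vol u h := by
  rw [form2_euler gf hp, form1_self gf hp]; ring

omit gf in
lemma pos_eventually (hp : Pos h) (a : Fin N → ℝ) : ∀ᶠ t in 𝓝 (0 : ℝ), Pos (h + t • a) := by
  refine eventually_all.2 fun i => ?_
  have hc : Continuous fun t : ℝ => (h + t • a) i := by fun_prop
  exact hc.continuousAt.eventually_const_lt (by simpa using hp i)

lemma hasDerivAt_vol_ray {t : ℝ} (hp : Pos (h + t • z)) :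
    HasDerivAt (fun s => vol u (h + s • z)) (form1 u (h + t • z) z) t := by
  have hl : HasDerivAt (fun s : ℝ => h + s • z) z t := by
    simpa using ((hasDerivAt_id t).smul_const z).const_add h
  refine ((gf.vol_fderiv _ hp).comp_hasDerivAt t hl).congr_deriv ?_
  simp [form1, mul_comm]

lemma hasDerivAt_area_ray {t : ℝ} (hp : Pos (h + t • z)) (i : Fin N) :
    HasDerivAt (fun s => area u (h + s • z) i) (hv u (h + t • z) z i) t := by
  have hl : HasDerivAt (fun s : ℝ => h + s • z) z t := by
    simpa using ((hasDerivAt_id t).smul_const z).const_add h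
  refine ((gf.area_fderiv _ hp i).comp_hasDerivAt t hl).congr_deriv ?_
  simp [hv, mul_comm]

lemma hasDerivAt_form1_ray {t : ℝ} (hp : Pos (h + t • z)) (a : Fin N → ℝ) :
    HasDerivAt (fun s => form1 u (h + s • z) a) (form2 u (h + t • z) a z) t := by
  rw [form2_eq]
  exact (HasDerivAt.fun_sum fun i _ => (hasDerivAt_area_ray gf hp i).mul_const (a i)).congr_deriv
    (Finset.sum_congr rfl fun i _ => by ring)

lemma hess_continuousAt (hp : Pos h) (i l : Fin N) : ContinuousAt (fun g => hess u g i l) h := by
  refine (gf.hess_cont i l).continuousAt ?_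
  rw [mem_nhds_iff]
  refine ⟨{g | Pos g}, subset_rfl, ?_, hp⟩
  simp only [Pos, ofPred_forall]
  exact isOpen_iInter_of_finite fun i => isOpen_lt continuous_const (continuous_apply i)

lemma area_continuousAt (hp : Pos h) (i : Fin N) : ContinuousAt (fun g => area u g i) h :=
  (gf.area_fderiv h hp i).continuousAt

/-- The row of an inactive pair vanishes. -/
lemma hess_row_eq_zero (hp : Pos h) {i : Fin N} (h0 : area u h i = 0) (l : Fin N) :
    hess u h i l = 0 := by
  have hmin : IsLocalMin (fun g => area u g i) h := by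
    have hop : ∀ᶠ g in 𝓝 h, Pos g := by
      refine eventually_all.2 fun m => ?_
      exact (continuous_apply m).continuousAt.eventually_const_lt (hp m)
    filter_upwards [hop] with g hg
    rw [h0]; exact gf.area_nonneg g hg i
  have := hmin.hasFDerivAt_eq_zero (gf.area_fderiv h hp i)
  have := DFunLike.congr_fun this (Pi.single l (1 : ℝ))
  simpa [Pi.single_apply] using this

lemma area_pos_of_ne (hp : Pos h) {i : Fin N} (hz : ∀ i, area u h i = 0 → z i = 0) (hi : z i ≠ 0) :
    0 < area u h i :=
  lt_of_le_of_ne (gf.area_nonneg h hp i) fun e => hi (hz i e.symm)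

lemma wdot_nonneg (hp : Pos h) (a : Fin N → ℝ) : 0 ≤ wdot u h a a :=
  Finset.sum_nonneg fun i _ => div_nonneg (by
    nlinarith [gf.area_nonneg h hp i, mul_self_nonneg (a i)]) (hp i).le

/-- The eigen equation of a maximiser of the local form. -/
lemma eigen (hp : Pos h) {τ : ℝ} (hle : ∀ v, rForm u τ h v ≤ 0) (hF : form1 u h z = 0)
    (h0 : rForm u τ h z = 0) (v : Fin N → ℝ) : form2 u h z v = -τ * wdot u h z v := by
  set B := form2 u h z v + τ * wdot u h z v with hB
  have key : ∀ t : ℝ, rForm u τ h (z + t • v) = 2 * t * B + t ^ 2 * rForm u τ h v := by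
    intro t
    have e0 : form2 u h z z + τ * wdot u h z z = 0 := by
      have := h0
      simp only [rForm, varForm_eq, hF] at this
      norm_num at this
      linarith [this]
    simp only [rForm, varForm_eq, form2_add_self gf hp, form1_add, wdot_add_self, hF, hB]
    linear_combination e0
  suffices B = 0 by rw [hB] at this; linarith
  by_contra hne
  set R := rForm u τ h v with hR
  have hR0 : R ≤ 0 := hle v
  have h1 := (key (B / (1 - R))).symm ▸ hle (z + (B / (1 - R)) • v)
  have h2 : 2 * (B / (1 - R)) * B + (B / (1 - R)) ^ 2 * R = B ^ 2 * (2 - R) / (1 - R) ^ 2 := by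
    field_simp; ring
  rw [h2] at h1
  have : 0 < B ^ 2 * (2 - R) / (1 - R) ^ 2 :=
    div_pos (mul_pos (by positivity) (by linarith)) (pow_pos (by linarith) 2)
  linarith

lemma hv_eigen (hp : Pos h) {τ : ℝ} (he : ∀ v, form2 u h z v = -τ * wdot u h z v) (i : Fin N) :
    hv u h z i = -τ * (area u h i * z i / h i) := by
  have := he (Pi.single i 1)
  rw [form2_comm gf hp, form2_eq] at this
  have e1 : wdot u h z (Pi.single i 1) = area u h i * z i / h i := by
    rw [wdot, Finset.sum_eq_single i (fun l _ hl => by simp [Pi.single_eq_of_ne hl]) (by simp)]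
    simp
  rw [e1] at this
  simpa [Pi.single_apply] using this

end Geom

end Vale.Agent.P227.Log3
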