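import Vale.Agent.P227.LogBM.Spec
import Vale.Agent.P227.Lp3.Geometry

/-!
# P227: shrinking by the segment orthogonal to two normals

In the coordinates `(a, b, t)` of the pair `(j, k)` shrinking the support numbers by `ε • dirW u j k`
shortens every fibre by `2 ε`.  So the removed volume is the integral over the box of the fibre
length clipped at `2 ε`.  It is monotone in the support numbers, and along perturbations fixing the
active pair `j` it is concave: for fixed `a` every superlevel set in `b` is an interval that moves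
concavely.
-/

namespace Vale.Agent.P227.Log3

open Vale.Agent.P227.Lp3 MeasureTheory Set Filter Finset Matrix
open scoped Topology

namespace Dir

variable {N : ℕ} {u : Fin N → V3} {j k : Fin N}

lemma dirW_eq (u : Fin N → V3) (j k : Fin N) : dirW u j k = fibreWeight u j k := by
  funext l
  simp only [dirW, fibreWeight, edgeDir_dot_eq, det3]
  rw [triple_product_permutation (u l) (u j) (u k)]

/-! ### The clipped length -/

/-- The part of `max 0 x` removed when `x` drops by `e`. -/
def clip (e x : ℝ) : ℝ := max 0 x - max 0 (x - e)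

lemma clip_nonneg {e : ℝ} (he : 0 ≤ e) (x : ℝ) : 0 ≤ clip e x := by
  unfold clip
  rcases le_total (x - e) 0 with h | h
  · rw [max_eq_left h]; simp
  · rw [max_eq_right h, max_eq_right (by linarith)]; linarith

lemma clip_le {e : ℝ} (he : 0 ≤ e) (x : ℝ) : clip e x ≤ e := by
  unfold clip
  rcases le_total x 0 with h | h
  · rw [max_eq_left h]; linarith [le_max_left 0 (x - e)]
  · rw [max_eq_right h]; linarith [le_max_right 0 (x - e)]

lemma clip_mono {e : ℝ} (he : 0 ≤ e) {x y : ℝ} (hxy : x ≤ y) : clip e x ≤ clip e y := by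
  unfold clip
  rcases le_total x 0 with hx | hx <;> rcases le_total y 0 with hy | hy <;>
    rcases le_total (x - e) 0 with hxe | hxe <;> rcases le_total (y - e) 0 with hye | hye <;>
    simp only [max_eq_left, max_eq_right, hx, hy, hxe, hye] <;> linarith

lemma le_clip_iff {e s : ℝ} (hs : 0 < s) (hse : s ≤ e) (x : ℝ) : s ≤ clip e x ↔ s ≤ x := by
  unfold clip
  rcases le_total x 0 with hx | hx
  · rw [max_eq_left hx, max_eq_left (by linarith : x - e ≤ 0)]
    constructor <;> intro h <;> linarith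
  · rw [max_eq_right hx]
    rcases le_total (x - e) 0 with hxe | hxe
    · rw [max_eq_left hxe, sub_zero]
    · rw [max_eq_right hxe]
      constructor <;> intro h <;> linarith

lemma continuous_clip (e : ℝ) : Continuous (clip e) := by
  unfold clip; fun_prop

/-! ### The signed fibre length -/

/-- The signed length of a fibre. -/
noncomputable def gap (hu : GenPos u) (j k : Fin N) (a b : ℝ) (g : Fin N → ℝ) : ℝ :=
  lineTop hu j k a b g - lineBot hu j k a b g

lemma continuous_gap (hu : GenPos u) (j k : Fin N) {X : Type*} [TopologicalSpace X]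
    {f f' : X → ℝ} {g : X → Fin N → ℝ} (hf : Continuous f) (hf' : Continuous f')
    (hg : Continuous g) : Continuous fun x => gap hu j k (f x) (f' x) (g x) :=
  (continuous_lineTop' hu j k hf hf' hg).sub (continuous_lineBot' hu j k hf hf' hg)

lemma gap_neg (hu : GenPos u) (j k : Fin N) (a b : ℝ) (g : Fin N → ℝ) :
    gap hu j k (-a) (-b) g = gap hu j k a b g := by
  have h1 := lineBot_neg hu j k a b g
  have h2 := lineBot_neg hu j k (-a) (-b) g
  rw [neg_neg, neg_neg] at h2
  simp only [gap, h1, h2]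
  ring

lemma gap_mono (hu : GenPos u) (j k : Fin N) (a b : ℝ) {g g' : Fin N → ℝ} (h : ∀ l, g l ≤ g' l) :
    gap hu j k a b g ≤ gap hu j k a b g' := by
  have hr : ∀ l, cutRad u j k l g ≤ cutRad u j k l g' := fun l =>
    div_le_div_of_nonneg_right (h l) (abs_nonneg _)
  refine sub_le_sub (Finset.le_inf' _ _ fun l hl => ?_) (Finset.sup'_le _ _ fun l hl => ?_)
  · exact (Finset.inf'_le (fun l => cutMid u j k l a b + cutRad u j k l g) hl).trans
      (by linarith [hr l])
  · refine le_trans (by linarith [hr l]) (Finset.le_sup' (fun l => cutMid u j k l a b - cutRad u j k l g) hl)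

lemma cutMid_combo (u : Fin N → V3) (j k l : Fin N) (θ η a₁ a₂ b₁ b₂ : ℝ) :
    cutMid u j k l (θ * a₁ + η * a₂) (θ * b₁ + η * b₂)
      = θ * cutMid u j k l a₁ b₁ + η * cutMid u j k l a₂ b₂ := by
  simp only [cutMid, edgeBase_linear u j k (θ * a₁ + η * a₂), edgeBase_linear u j k a₁ b₁,
    edgeBase_linear u j k a₂ b₂, add_dotProduct, smul_dotProduct, smul_eq_mul]
  ring

/-- The signed length is jointly concave. -/
lemma gap_combo (hu : GenPos u) (j k : Fin N) {θ η : ℝ} (hθ : 0 ≤ θ) (hη : 0 ≤ η)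
    (a₁ a₂ b₁ b₂ : ℝ) (g₁ g₂ : Fin N → ℝ) :
    θ * gap hu j k a₁ b₁ g₁ + η * gap hu j k a₂ b₂ g₂
      ≤ gap hu j k (θ * a₁ + η * a₂) (θ * b₁ + η * b₂) (θ • g₁ + η • g₂) := by
  have hr : ∀ l, cutRad u j k l (θ • g₁ + η • g₂)
      = θ * cutRad u j k l g₁ + η * cutRad u j k l g₂ := fun l => by
    simp only [cutRad, Pi.add_apply, Pi.smul_apply, smul_eq_mul]; ring
  have ht : θ * lineTop hu j k a₁ b₁ g₁ + η * lineTop hu j k a₂ b₂ g₂
      ≤ lineTop hu j k (θ * a₁ + η * a₂) (θ * b₁ + η * b₂) (θ • g₁ + η • g₂) := by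
    refine Finset.le_inf' _ _ fun l hl => ?_
    rw [cutMid_combo, hr]
    have h1 := mul_le_mul_of_nonneg_left
      (Finset.inf'_le (fun l => cutMid u j k l a₁ b₁ + cutRad u j k l g₁) hl) hθ
    have h2 := mul_le_mul_of_nonneg_left
      (Finset.inf'_le (fun l => cutMid u j k l a₂ b₂ + cutRad u j k l g₂) hl) hη
    simp only [lineTop] at *
    linarith
  have hb : lineBot hu j k (θ * a₁ + η * a₂) (θ * b₁ + η * b₂) (θ • g₁ + η • g₂)
      ≤ θ * lineBot hu j k a₁ b₁ g₁ + η * lineBot hu j k a₂ b₂ g₂ := by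
    refine Finset.sup'_le _ _ fun l hl => ?_
    rw [cutMid_combo, hr]
    have h1 := mul_le_mul_of_nonneg_left
      (Finset.le_sup' (fun l => cutMid u j k l a₁ b₁ - cutRad u j k l g₁) hl) hθ
    have h2 := mul_le_mul_of_nonneg_left
      (Finset.le_sup' (fun l => cutMid u j k l a₂ b₂ - cutRad u j k l g₂) hl) hη
    simp only [lineBot] at *
    linarith
  simp only [gap]
  linarith

/-! ### Intervals -/

lemma measureReal_convex {A : Set ℝ} (hA : Convex ℝ A) (hne : A.Nonempty) (hb : BddBelow A)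
    (ha : BddAbove A) : volume.real A = sSup A - sInf A := by
  have hle : sInf A ≤ sSup A := csInf_le_csSup hne hb ha
  have hfin : volume (Set.Icc (sInf A) (sSup A)) ≠ ⊤ := by simp
  have hsub := subset_Icc_csInf_csSup hb ha
  refine le_antisymm ?_ ?_
  · refine (measureReal_mono hsub hfin).trans (le_of_eq ?_)
    simp [Measure.real, Real.volume_Icc, hle]
  · refine le_trans (le_of_eq ?_) (measureReal_mono
      ((IsConnected.Ioo_csInf_csSup_subset (hA.isConnected hne) hb ha))
      (ne_top_of_le_ne_top hfin (measure_mono hsub)))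
    simp [Measure.real, Real.volume_Ioo, hle]

/-- The length of an interval containing a combination of two intervals. -/
lemma measureReal_combo {A₁ A₂ A : Set ℝ} {θ η : ℝ} (hθ : 0 ≤ θ) (hη : 0 ≤ η)
    (h₁ : Convex ℝ A₁) (h₂ : Convex ℝ A₂) (h : Convex ℝ A) (n₁ : A₁.Nonempty) (n₂ : A₂.Nonempty)
    {M : ℝ} (b₁ : A₁ ⊆ Set.Icc (-M) M) (b₂ : A₂ ⊆ Set.Icc (-M) M) (b : A ⊆ Set.Icc (-M) M)
    (hc : ∀ x ∈ A₁, ∀ y ∈ A₂, θ * x + η * y ∈ A) :
    θ * volume.real A₁ + η * volume.real A₂ ≤ volume.real A := by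
  have ba : ∀ {S : Set ℝ}, S ⊆ Set.Icc (-M) M → BddAbove S := fun hS => bddAbove_Icc.mono hS
  have bb : ∀ {S : Set ℝ}, S ⊆ Set.Icc (-M) M → BddBelow S := fun hS => bddBelow_Icc.mono hS
  obtain ⟨x₀, hx₀⟩ := n₁
  obtain ⟨y₀, hy₀⟩ := n₂
  have n : A.Nonempty := ⟨_, hc _ hx₀ _ hy₀⟩
  rw [measureReal_convex h₁ ⟨x₀, hx₀⟩ (bb b₁) (ba b₁), measureReal_convex h₂ ⟨y₀, hy₀⟩ (bb b₂) (ba b₂),
    measureReal_convex h n (bb b) (ba b)]
  have key : θ * sSup A₁ + η * sSup A₂ ≤ sSup A ∧ sInf A ≤ θ * sInf A₁ + η * sInf A₂ := by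
    refine ⟨le_of_forall_pos_le_add fun c hc0 => ?_, le_of_forall_pos_le_add fun c hc0 => ?_⟩
    · set c' := c / (θ + η + 1) with hc'
      have hc'0 : 0 < c' := by positivity
      obtain ⟨x, hx, hx'⟩ := exists_lt_of_lt_csSup ⟨x₀, hx₀⟩ (by linarith : sSup A₁ - c' < sSup A₁)
      obtain ⟨y, hy, hy'⟩ := exists_lt_of_lt_csSup ⟨y₀, hy₀⟩ (by linarith : sSup A₂ - c' < sSup A₂)
      have h3 := le_csSup (ba b) (hc x hx y hy)
      have h4 : (θ + η) * c' ≤ c := by
        rw [hc', ← mul_div_assoc, div_le_iff₀ (by positivity)]; nlinarith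
      nlinarith [mul_le_mul_of_nonneg_left hx'.le hθ, mul_le_mul_of_nonneg_left hy'.le hη]
    · set c' := c / (θ + η + 1) with hc'
      have hc'0 : 0 < c' := by positivity
      obtain ⟨x, hx, hx'⟩ := exists_lt_of_csInf_lt ⟨x₀, hx₀⟩ (by linarith : sInf A₁ < sInf A₁ + c')
      obtain ⟨y, hy, hy'⟩ := exists_lt_of_csInf_lt ⟨y₀, hy₀⟩ (by linarith : sInf A₂ < sInf A₂ + c')
      have h3 := csInf_le (bb b) (hc x hx y hy)
      have h4 : (θ + η) * c' ≤ c := by
        rw [hc', ← mul_div_assoc, div_le_iff₀ (by positivity)]; nlinarith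
      nlinarith [mul_le_mul_of_nonneg_left hx'.le hθ, mul_le_mul_of_nonneg_left hy'.le hη]
  nlinarith [key.1, key.2]

/-! ### The slice of the removed volume -/

/-- The removed volume over one line `x ⬝ᵥ u j = a`. -/
noncomputable def cut (hu : GenPos u) (j k : Fin N) (e a : ℝ) (g : Fin N → ℝ) : ℝ :=
  ∫ b in Set.Icc (-g k) (g k), clip e (gap hu j k a b g)

/-- The part of the line on which the fibre has length at least `s`. -/
noncomputable def level (hu : GenPos u) (j k : Fin N) (s a : ℝ) (g : Fin N → ℝ) : Set ℝ :=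
  {b ∈ Set.Icc (-g k) (g k) | s ≤ gap hu j k a b g}

lemma level_subset (hu : GenPos u) (j k : Fin N) (s a : ℝ) (g : Fin N → ℝ) :
    level hu j k s a g ⊆ Set.Icc (-g k) (g k) := fun _ hb => hb.1

lemma level_convex (hu : GenPos u) (j k : Fin N) (s a : ℝ) (g : Fin N → ℝ) :
    Convex ℝ (level hu j k s a g) := by
  intro x hx y hy θ η hθ hη hsum
  refine ⟨convex_Icc _ _ hx.1 hy.1 hθ hη hsum, ?_⟩
  have h := gap_combo hu j k hθ hη a a x y g g
  rw [← add_mul, hsum, one_mul, ← add_smul, hsum, one_smul] at h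
  have h1 := mul_le_mul_of_nonneg_left hx.2 hθ
  have h2 := mul_le_mul_of_nonneg_left hy.2 hη
  simp only [smul_eq_mul]
  have : θ * s + η * s = s := by rw [← add_mul, hsum, one_mul]
  linarith

lemma measure_level_ne_top (hu : GenPos u) (j k : Fin N) (s a : ℝ) (g : Fin N → ℝ) :
    volume (level hu j k s a g) ≠ ⊤ :=
  ne_top_of_le_ne_top (by simp) (measure_mono (level_subset hu j k s a g))

lemma integrableOn_level (hu : GenPos u) (j k : Fin N) (e a : ℝ) (g : Fin N → ℝ) :
    IntegrableOn (fun s => volume.real (level hu j k s a g)) (Set.Ioc 0 e) := by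
  refine IntegrableOn.mono_set (AntitoneOn.integrableOn_isCompact isCompact_Icc ?_) Ioc_subset_Icc_self
  intro s _ t _ hst
  exact measureReal_mono (fun b hb => ⟨hb.1, hst.trans hb.2⟩) (measure_level_ne_top hu j k s a g)

lemma cut_eq (hu : GenPos u) (j k : Fin N) {e : ℝ} (he : 0 ≤ e) (a : ℝ) (g : Fin N → ℝ) :
    cut hu j k e a g = ∫ s in Set.Ioc 0 e, volume.real (level hu j k s a g) := by
  have hc : Continuous fun b => clip e (gap hu j k a b g) :=
    (continuous_clip e).comp (continuous_gap hu j k continuous_const continuous_id continuous_const)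
  rw [cut, Integrable.integral_eq_integral_Ioc_meas_le (hc.continuousOn.integrableOn_compact
      isCompact_Icc) (ae_of_all _ fun b => clip_nonneg he _) (ae_of_all _ fun b => clip_le he _)]
  refine setIntegral_congr_fun measurableSet_Ioc fun s hs => ?_
  simp only [measureReal_restrict_apply (measurableSet_le measurable_const hc.measurable)]
  congr 1
  ext b
  simp only [level, Set.mem_inter_iff, Set.mem_ofPred_eq, le_clip_iff hs.1 hs.2]
  exact and_comm

/-- Along combinations the slice of the removed volume is concave where it is full somewhere. -/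
lemma cut_combo (hu : GenPos u) (j k : Fin N) {θ η e : ℝ} (hθ : 0 ≤ θ) (hη : 0 ≤ η)
    (hsum : θ + η = 1) (he : 0 ≤ e) (a : ℝ) (g₁ g₂ : Fin N → ℝ)
    (n₁ : (level hu j k e a g₁).Nonempty) (n₂ : (level hu j k e a g₂).Nonempty) :
    θ * cut hu j k e a g₁ + η * cut hu j k e a g₂ ≤ cut hu j k e a (θ • g₁ + η • g₂) := by
  rw [cut_eq hu j k he, cut_eq hu j k he, cut_eq hu j k he, ← integral_const_mul, ← integral_const_mul,
    ← integral_add ((integrableOn_level hu j k e a g₁).const_mul θ)
      ((integrableOn_level hu j k e a g₂).const_mul η)]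
  refine setIntegral_mono_on (((integrableOn_level hu j k e a g₁).const_mul θ).add
    ((integrableOn_level hu j k e a g₂).const_mul η)) (integrableOn_level hu j k e a _)
    measurableSet_Ioc fun s hs => ?_
  set M := |g₁ k| + |g₂ k| + |(θ • g₁ + η • g₂) k| with hM
  have hb : ∀ g : Fin N → ℝ, |g k| ≤ M → level hu j k s a g ⊆ Set.Icc (-M) M := fun g hg =>
    (level_subset hu j k s a g).trans (Set.Icc_subset_Icc (by linarith [le_abs_self (g k)])
      (by linarith [le_abs_self (g k)]))
  have p1 := abs_nonneg (g₁ k)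
  have p2 := abs_nonneg (g₂ k)
  have p3 := abs_nonneg ((θ • g₁ + η • g₂) k)
  refine measureReal_combo hθ hη (level_convex hu j k s a g₁) (level_convex hu j k s a g₂)
    (level_convex hu j k s a _) (n₁.mono fun b hb => ⟨hb.1, hs.2.trans hb.2⟩)
    (n₂.mono fun b hb => ⟨hb.1, hs.2.trans hb.2⟩) (hb _ (by linarith)) (hb _ (by linarith))
    (hb _ (by linarith)) fun x hx y hy => ⟨?_, ?_⟩
  · simp only [Set.mem_Icc, Pi.add_apply, Pi.smul_apply, smul_eq_mul]
    constructor <;> nlinarith [mul_le_mul_of_nonneg_left hx.1.1 hθ, mul_le_mul_of_nonneg_left hx.1.2 hθ,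
      mul_le_mul_of_nonneg_left hy.1.1 hη, mul_le_mul_of_nonneg_left hy.1.2 hη]
  · have h := gap_combo hu j k hθ hη a a x y g₁ g₂
    rw [← add_mul, hsum, one_mul] at h
    have : θ * s + η * s = s := by rw [← add_mul, hsum, one_mul]
    linarith [mul_le_mul_of_nonneg_left hx.2 hθ, mul_le_mul_of_nonneg_left hy.2 hη]

/-! ### The removed volume -/

lemma vol_sub_eq (hu : GenPos u) (hjk : j ≠ k) (ε : ℝ) (g : Fin N → ℝ) :
    vol u g - vol u (g - ε • dirW u j k)
      = ∫ p in pairBox g j k, clip (2 * ε) (gap hu j k p.1 p.2 g) := by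
  have hd : g - ε • dirW u j k = g + (-ε) • fibreWeight u j k := by
    rw [dirW_eq]; module
  have hbox : pairBox (g - ε • dirW u j k) j k = pairBox g j k := by
    simp [pairBox, dirW_eq, fibreWeight, edgeDir_dot_left, edgeDir_dot_right]
  rw [vol_eq_pair hu hjk, vol_eq_pair hu hjk (g - ε • dirW u j k), hbox,
    ← integral_sub (integrableOn_lineLen hu j k g g) (integrableOn_lineLen hu j k g _)]
  refine integral_congr_ae (ae_of_all _ fun p => ?_)
  obtain ⟨h1, h2⟩ := lineTop_shift hu hjk p.1 p.2 (-ε) g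
  simp only [lineLen_eq hu, clip, gap, hd, h1, h2]
  congr 2
  ring

lemma integrableOn_clip_gap (hu : GenPos u) (j k : Fin N) (e : ℝ) (g g' : Fin N → ℝ) :
    IntegrableOn (fun p : ℝ × ℝ => clip e (gap hu j k p.1 p.2 g')) (pairBox g j k) :=
  ((continuous_clip e).comp (continuous_gap hu j k continuous_fst continuous_snd
    continuous_const)).continuousOn.integrableOn_compact (isCompact_Icc.prod isCompact_Icc)

lemma vol_sub_mono (hu : GenPos u) (hjk : j ≠ k) {ε : ℝ} (hε : 0 ≤ ε) {g g' : Fin N → ℝ}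
    (h : ∀ l, g l ≤ g' l) :
    vol u g - vol u (g - ε • dirW u j k) ≤ vol u g' - vol u (g' - ε • dirW u j k) := by
  rw [vol_sub_eq hu hjk, vol_sub_eq hu hjk]
  have hb : pairBox g j k ⊆ pairBox g' j k :=
    Set.prod_mono (Set.Icc_subset_Icc (neg_le_neg (h j)) (h j))
      (Set.Icc_subset_Icc (neg_le_neg (h k)) (h k))
  refine (setIntegral_mono_set (integrableOn_clip_gap hu j k _ g' g)
    (ae_of_all _ fun p => clip_nonneg (by linarith) _) hb.eventuallyLE).trans ?_
  exact setIntegral_mono_on (integrableOn_clip_gap hu j k _ g' g) (integrableOn_clip_gap hu j k _ g' g')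
    (measurableSet_Icc.prod measurableSet_Icc) fun p _ =>
      clip_mono (by linarith) (gap_mono hu j k _ _ h)

lemma vol_sub_slices (hu : GenPos u) (hjk : j ≠ k) (ε : ℝ) (g : Fin N → ℝ) :
    vol u g - vol u (g - ε • dirW u j k) = ∫ a in Set.Icc (-g j) (g j), cut hu j k (2 * ε) a g := by
  rw [vol_sub_eq hu hjk, pairBox, Measure.volume_eq_prod, setIntegral_prod _ (by
    simpa [pairBox, Measure.volume_eq_prod] using integrableOn_clip_gap hu j k (2 * ε) g g)]
  rfl

lemma continuous_cut (hu : GenPos u) (j k : Fin N) (e : ℝ) (g : Fin N → ℝ) :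
    Continuous fun a => cut hu j k e a g := by
  refine continuous_parametric_integral_of_continuous ?_ isCompact_Icc
  exact (continuous_clip e).comp (continuous_gap hu j k continuous_fst continuous_snd continuous_const)

/-- An active pair gives a fibre of full length near the middle of every line. -/
lemma exists_full (hu : GenPos u) (hjk : j ≠ k) {h : Fin N → ℝ} {ε : ℝ}
    (hP : Pos (h - ε • dirW u j k)) (ha : 0 < area u (h - ε • dirW u j k) j) :
    ∃ b, |b| < h k ∧ 2 * ε < gap hu j k (h j) b h := by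
  set h' := h - ε • dirW u j k with hh'
  have hj : h' j = h j := by simp [hh', dirW_eq, fibreWeight, edgeDir_dot_left]
  have hk : h' k = h k := by simp [hh', dirW_eq, fibreWeight, edgeDir_dot_right]
  by_contra hc
  push Not at hc
  refine ha.ne' ?_
  rw [area_eq_slice hu hjk hP, sliceArea, hj, hk,
    intervalIntegral.integral_of_le (by linarith [hk ▸ hP k]), integral_Ioc_eq_integral_Ioo,
    setIntegral_eq_zero_of_forall_eq_zero, mul_zero]
  intro b hb
  have hg := hc b (abs_lt.2 ⟨hb.1, hb.2⟩)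
  obtain ⟨h1, h2⟩ := lineTop_shift hu hjk (h j) b (-ε) h
  have hd : h' = h + (-ε) • fibreWeight u j k := by rw [hh', dirW_eq]; module
  rw [lineLen_eq hu, hd, h1, h2, max_eq_left]
  simp only [gap] at hg
  linarith

/-- Along a perturbation fixing the active pair `j` the removed volume is concave near the start. -/
lemma vol_sub_concave (hu : GenPos u) (hjk : j ≠ k) {h w : Fin N → ℝ} {ε : ℝ} (hε : 0 ≤ ε)
    (hh : Pos h) (hP : Pos (h - ε • dirW u j k)) (ha : 0 < area u (h - ε • dirW u j k) j)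
    (hw : w j = 0) :
    ∃ δ > (0 : ℝ), (∀ t ∈ Set.Ioo (-δ) δ, Pos (h + t • w) ∧ Pos (h - ε • dirW u j k + t • w)) ∧
      ConcaveOn ℝ (Set.Ioo (-δ) δ)
        (fun t => vol u (h + t • w) - vol u (h - ε • dirW u j k + t • w)) := by
  obtain ⟨b₀, hb₀, hfull⟩ := exists_full hu hjk hP ha
  have hev : ∀ᶠ t in 𝓝 (0 : ℝ), Pos (h + t • w) ∧ Pos (h - ε • dirW u j k + t • w) ∧
      |b₀| < (h + t • w) k ∧ 2 * ε < gap hu j k (h j) b₀ (h + t • w) := by
    have c1 : Continuous fun t : ℝ => h + t • w := by fun_prop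
    have c2 : Continuous fun t : ℝ => h - ε • dirW u j k + t • w := by fun_prop
    refine ((c1.tendsto' 0 h (by simp)).eventually (isOpen_posSet.mem_nhds hh)).and
      (((c2.tendsto' 0 _ (by simp)).eventually (isOpen_posSet.mem_nhds hP)).and
        (Filter.Eventually.and ?_ ?_))
    · exact (((continuous_apply k).comp c1).tendsto' 0 (h k) (by simp)).eventually (lt_mem_nhds hb₀)
    · exact ((continuous_gap hu j k (continuous_const (y := h j)) (continuous_const (y := b₀))
        c1).tendsto' 0 _ (by simp)).eventually (lt_mem_nhds hfull)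
  obtain ⟨δ, hδ, hball⟩ := Metric.eventually_nhds_iff.1 hev
  have hmem : ∀ t ∈ Set.Ioo (-δ) δ, dist t 0 < δ := fun t ht => by
    rw [Real.dist_eq, sub_zero]; exact abs_lt.2 ⟨ht.1, ht.2⟩
  refine ⟨δ, hδ, fun t ht => ⟨(hball (hmem t ht)).1, (hball (hmem t ht)).2.1⟩, convex_Ioo _ _, ?_⟩
  have he : ∀ t : ℝ, vol u (h + t • w) - vol u (h - ε • dirW u j k + t • w)
      = ∫ a in Set.Icc (-h j) (h j), cut hu j k (2 * ε) a (h + t • w) := fun t => by
    have e1 : h - ε • dirW u j k + t • w = (h + t • w) - ε • dirW u j k := by abel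
    rw [e1, vol_sub_slices hu hjk]
    simp [hw]
  have hne : ∀ t ∈ Set.Ioo (-δ) δ, ∀ a ∈ Set.Icc (-h j) (h j),
      (level hu j k (2 * ε) a (h + t • w)).Nonempty := by
    intro t ht a hA
    obtain ⟨-, -, hb, hg⟩ := hball (hmem t ht)
    have hj := hh j
    set θ := (1 + a / h j) / 2 with hθd
    have hθ : 0 ≤ θ := by
      rw [hθd, le_div_iff₀ two_pos, zero_mul, ← sub_nonneg, sub_zero]
      linarith [(le_div_iff₀ hj).2 (by linarith [hA.1] : -1 * h j ≤ a)]
    have hη : 0 ≤ 1 - θ := by
      linarith [(div_le_iff₀ hj).2 (by linarith [hA.2] : a ≤ 1 * h j)]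
    refine ⟨θ * b₀ + (1 - θ) * -b₀, ?_, ?_⟩
    · obtain ⟨hb1, hb2⟩ := abs_le.1 hb.le
      constructor <;> nlinarith
    · have hc := gap_combo hu j k hθ hη (h j) (-h j) b₀ (-b₀) (h + t • w) (h + t • w)
      have ea : θ * h j + (1 - θ) * -h j = a := by rw [hθd]; field_simp; ring
      rw [gap_neg, ea, ← add_smul, add_sub_cancel, one_smul] at hc
      nlinarith
  intro t₁ h₁ t₂ h₂ θ η hθ hη hsum
  simp only [smul_eq_mul, he]
  have hi : ∀ t : ℝ, IntegrableOn (fun a => cut hu j k (2 * ε) a (h + t • w)) (Set.Icc (-h j) (h j)) :=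
    fun t => (continuous_cut hu j k _ _).continuousOn.integrableOn_compact isCompact_Icc
  rw [← integral_const_mul, ← integral_const_mul, ← integral_add ((hi t₁).const_mul θ) ((hi t₂).const_mul η)]
  refine setIntegral_mono_on (((hi t₁).const_mul θ).add ((hi t₂).const_mul η)) (hi _) measurableSet_Icc
    fun a hA => ?_
  have hg : h + (θ * t₁ + η * t₂) • w = θ • (h + t₁ • w) + η • (h + t₂ • w) := by
    have : θ • h + η • h = h := by rw [← add_smul, hsum, one_smul]
    rw [smul_add, smul_add, smul_smul, smul_smul, add_smul]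
    nth_rewrite 1 [← this]
    abel
  rw [hg]
  exact cut_combo hu j k hθ hη hsum (by linarith) a _ _ (hne t₁ h₁ a hA) (hne t₂ h₂ a hA)

/-! ### The two facts -/

lemma line_deriv (h w : Fin N → ℝ) (t : ℝ) : HasDerivAt (fun r : ℝ => h + r • w) w t := by
  simpa using ((hasDerivAt_id t).smul_const w).const_add h

lemma dir_hasDerivAt_vol_line (hu : GenPos u) {h w : Fin N → ℝ} {t : ℝ} (ht : Pos (h + t • w)) :
    HasDerivAt (fun r => vol u (h + r • w)) (form1 u (h + t • w) w) t := by
  refine ((hasFDerivAt_vol' hu ht).comp_hasDerivAt t (line_deriv h w t)).congr_deriv ?_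
  simp [form1]

lemma dir_hasDerivAt_area_line (hu : GenPos u) {h w : Fin N → ℝ} {t : ℝ} (ht : Pos (h + t • w))
    (i : Fin N) :
    HasDerivAt (fun r => area u (h + r • w) i) (∑ l, hess u (h + t • w) i l * w l) t := by
  refine ((hasFDerivAt_area' hu i ht).comp_hasDerivAt t (line_deriv h w t)).congr_deriv ?_
  simp

lemma hess_dir_nonneg (hu : GenPos u) (hjk : j ≠ k) {h : Fin N → ℝ} (hh : Pos h) (i : Fin N) :
    0 ≤ ∑ l, hess u h i l * dirW u j k l := by
  set d := dirW u j k with hd
  have hline := dir_hasDerivAt_area_line hu (h := h) (w := -d) (t := 0) (by simpa using hh) i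
  simp only [zero_smul, add_zero] at hline
  have hev : ∀ᶠ ε in 𝓝[>] (0 : ℝ), ε⁻¹ • (area u (h + (0 + ε) • -d) i - area u (h + (0 : ℝ) • -d) i) ≤ 0 := by
    have hc : Continuous fun ε : ℝ => h + ε • -d := by fun_prop
    filter_upwards [((hc.tendsto' 0 h (by simp)).eventually (isOpen_posSet.mem_nhds hh)).filter_mono
      nhdsWithin_le_nhds, self_mem_nhdsWithin] with ε hP (hε : 0 < ε)
    rw [zero_add, zero_smul, add_zero, smul_eq_mul]
    refine mul_nonpos_of_nonneg_of_nonpos (inv_pos.2 hε).le (sub_nonpos.2 ?_)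
    have e1 : h - ε • d = h + ε • -d := by module
    have hV := dir_hasDerivAt_vol_line hu (h := h) (w := Pi.single i 1) (t := 0) (by simpa using hh)
    have hW := dir_hasDerivAt_vol_line hu (h := h + ε • -d) (w := Pi.single i 1) (t := 0) (by rwa [zero_smul, add_zero])
    have hF := (hV.fun_sub hW).tendsto_slope_zero_right
    have key := ge_of_tendsto hF (b := 0) ?_
    · simp only [zero_smul, add_zero, form1, Pi.single_apply, mul_ite, mul_one, mul_zero,
        Finset.sum_ite_eq', Finset.mem_univ, if_true] at key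
      linarith
    filter_upwards [self_mem_nhdsWithin] with r (hr : 0 < r)
    rw [zero_add, smul_eq_mul]
    refine mul_nonneg (inv_pos.2 hr).le (sub_nonneg.2 ?_)
    simp only [zero_smul, add_zero, ← e1]
    have hm := vol_sub_mono hu hjk hε.le (g := h) (g' := h + r • Pi.single i 1) fun l => by
      simp only [Pi.add_apply, Pi.smul_apply, smul_eq_mul]
      have : (0 : ℝ) ≤ (Pi.single i 1 : Fin N → ℝ) l := by
        rcases eq_or_ne l i with rfl | hl
        · simp
        · simp [Pi.single_eq_of_ne hl]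
      nlinarith
    have e2 : h + r • (Pi.single i 1 : Fin N → ℝ) - ε • d = h - ε • d + r • Pi.single i 1 := by abel
    rw [e2] at hm
    linarith
  have key := le_of_tendsto hline.tendsto_slope_zero_right hev
  simp only [Pi.neg_apply, mul_neg, Finset.sum_neg_distrib] at key
  linarith

lemma form2_mono' (hu : GenPos u) (hjk : j ≠ k) {h w : Fin N → ℝ} {ε : ℝ} (hh : Pos h) (hε : 0 ≤ ε)
    (hP : Pos (h - ε • dirW u j k)) (ha : 0 < area u (h - ε • dirW u j k) j) (hw : w j = 0) :
    form2 u h w w ≤ form2 u (h - ε • dirW u j k) w w := by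
  obtain ⟨δ, hδ, hpos, hconc⟩ := vol_sub_concave hu hjk hε hh hP ha hw
  set h' := h - ε • dirW u j k with hh'
  set ψ : ℝ → ℝ := fun t => form1 u (h + t • w) w - form1 u (h' + t • w) w with hψ
  have hd : ∀ t ∈ Set.Ioo (-δ) δ, HasDerivAt (fun r => vol u (h + r • w) - vol u (h' + r • w)) (ψ t) t :=
    fun t ht => (dir_hasDerivAt_vol_line hu (hpos t ht).1).fun_sub (dir_hasDerivAt_vol_line hu (hpos t ht).2)
  have hanti : AntitoneOn ψ (Set.Ioo (-δ) δ) := by
    intro x hx y hy hxy
    have := hconc.antitoneOn_deriv (fun t ht => (hd t ht).differentiableAt) hx hy hxy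
    rwa [(hd x hx).deriv, (hd y hy).deriv] at this
  have h0 : (0 : ℝ) ∈ Set.Ioo (-δ) δ := ⟨by linarith, hδ⟩
  have hψd : HasDerivAt ψ (form2 u h w w - form2 u h' w w) 0 := by
    have key : ∀ g : Fin N → ℝ, Pos g →
        HasDerivAt (fun r : ℝ => form1 u (g + r • w) w) (form2 u g w w) 0 := fun g hg => by
      have := HasDerivAt.fun_sum (u := Finset.univ) fun i _ =>
        (dir_hasDerivAt_area_line hu (h := g) (w := w) (t := 0) (by simpa using hg) i).mul_const (w i)
      simp only [zero_smul, add_zero] at this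
      refine this.congr_deriv ?_
      simp only [form2, Finset.sum_mul]
      exact Finset.sum_congr rfl fun i _ => Finset.sum_congr rfl fun l _ => by ring
    exact (key h hh).fun_sub (key h' hP)
  have := le_of_tendsto hψd.tendsto_slope_zero_right (b := 0) ?_
  · linarith
  filter_upwards [Ioo_mem_nhdsGT hδ] with t ht
  rw [zero_add, smul_eq_mul]
  exact mul_nonpos_of_nonneg_of_nonpos (inv_pos.2 ht.1).le
    (sub_nonpos.2 (hanti h0 ⟨by linarith [ht.1], ht.2⟩ ht.1.le))

end Dir

open Dir in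
/-- Shrinking by the segment orthogonal to two normals. -/
theorem dirSpec : DirSpec := fun _ _ hu =>
  { hess_dir := fun _ hh _ _ hjk i => hess_dir_nonneg hu hjk hh i
    form2_mono := fun _ hh _ _ hjk _ hε hP ha _ hw => form2_mono' hu hjk hh hε hP ha hw }

end Vale.Agent.P227.Log3
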