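import Vale.Agent.P227.LogBM.Spec
import Vale.Agent.P227.Lp3.Global

/-!
# P227: from the local logarithmic inequality to bodies in `ℝ³`

For fixed normals `s ↦ log vol (a^(1-s) b^s)` is concave, its second derivative being
`rForm 1 / vol`.  The normals are refined as in `Lp3/Global.lean`.
-/

namespace Vale.Agent.P227.Log3

open Vale.Agent.P227.Lp3 Vale.Agent.P227.Lp3.Global MeasureTheory Set Filter Finset Matrix
open scoped Topology

variable {N : ℕ} {u : Fin N → V3}

/-- The geometric mean of two vectors of support numbers. -/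
noncomputable def geoMean (a b : Fin N → ℝ) (s : ℝ) : Fin N → ℝ :=
  fun i => a i * Real.exp (s * (Real.log (b i) - Real.log (a i)))

lemma geoMean_eq {a b : Fin N → ℝ} (ha : Pos a) (hb : Pos b) (s : ℝ) :
    geoMean a b s = fun i => a i ^ (1 - s) * b i ^ s := by
  funext i
  rw [geoMean, Real.rpow_def_of_pos (ha i), Real.rpow_def_of_pos (hb i), ← Real.exp_add]
  nth_rw 1 [← Real.exp_log (ha i)]
  rw [← Real.exp_add]
  congr 1
  ring

/-- The local inequality integrated along a logarithmic segment. -/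
theorem segment_ineq (G : GeomFacts u) (hL : ∀ h, Pos h → ∀ z, rForm u 1 h z ≤ 0)
    {a b : Fin N → ℝ} (ha : Pos a) (hb : Pos b) {t : ℝ} (ht0 : 0 ≤ t) (ht1 : t ≤ 1) :
    vol u a ^ (1 - t) * vol u b ^ t ≤ vol u (fun i => a i ^ (1 - t) * b i ^ t) := by
  set H : ℝ → Fin N → ℝ := geoMean a b with hHdef
  have hH : ∀ s, Pos (H s) := fun s i => mul_pos (ha i) (Real.exp_pos _)
  set q : Fin N → ℝ := fun i => Real.log (b i) - Real.log (a i) with hq
  set Z : ℝ → Fin N → ℝ := fun s i => H s i * q i with hZ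
  have hmd : ∀ s i, HasDerivAt (fun r => H r i) (Z s i) s := fun s i => by
    refine ((((hasDerivAt_id s).mul_const (q i)).exp).const_mul (a i)).congr_deriv ?_
    simp only [hZ, hHdef, geoMean, hq, id_eq]
    ring
  have hZd : ∀ s i, HasDerivAt (fun r => Z r i) (Z s i ^ 2 / H s i) s := fun s i => by
    refine ((hmd s i).mul_const (q i)).congr_deriv ?_
    have := (hH s i).ne'
    simp only [hZ]
    field_simp
  set V : ℝ → ℝ := fun s => vol u (H s) with hV
  set D : ℝ → ℝ := fun s => form1 u (H s) (Z s) with hD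
  have hVd : ∀ s, HasDerivAt V (D s) s := fun s => by
    refine ((G.vol_fderiv _ (hH s)).comp_hasDerivAt s (hasDerivAt_pi.2 (hmd s))).congr_deriv ?_
    simp [hD, form1]
  set D2 : ℝ → ℝ := fun s => form2 u (H s) (Z s) (Z s) + ∑ i, area u (H s) i * Z s i ^ 2 / H s i
    with hD2
  have hDd : ∀ s, HasDerivAt D (D2 s) s := fun s => by
    have h1 : ∀ i, HasDerivAt (fun r => area u (H r) i * Z r i)
        ((∑ j, hess u (H s) i j * Z s j) * Z s i + area u (H s) i * (Z s i ^ 2 / H s i)) s :=
      fun i => by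
        refine HasDerivAt.fun_mul ?_ (hZd s i)
        refine ((G.area_fderiv _ (hH s) i).comp_hasDerivAt s
          (hasDerivAt_pi.2 (hmd s))).congr_deriv ?_
        simp
    refine (HasDerivAt.fun_sum fun i _ => h1 i).congr_deriv ?_
    simp only [hD2, form2, Finset.sum_add_distrib, Finset.sum_mul]
    congr 1
    · exact Finset.sum_congr rfl fun i _ => Finset.sum_congr rfl fun j _ => by ring
    · exact Finset.sum_congr rfl fun i _ => by ring
  set g1 : ℝ → ℝ := fun s => D s / V s with hg1
  have hg : ∀ s, HasDerivAt (fun r => Real.log (V r)) (g1 s) s := fun s =>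
    (hVd s).log (G.vol_pos _ (hH s)).ne'
  have hg1d : ∀ s, HasDerivAt g1 (rForm u 1 (H s) (Z s) / V s) s := fun s => by
    have hne := (G.vol_pos _ (hH s)).ne'
    refine ((hDd s).fun_div (hVd s) hne).congr_deriv ?_
    simp only [hD2, rForm, varForm, hD, hV]
    field_simp
    ring
  have hanti : Antitone g1 := antitone_of_hasDerivAt_nonpos hg1d fun s =>
    div_nonpos_of_nonpos_of_nonneg (hL _ (hH s) _) (G.vol_pos _ (hH s)).le
  have hdd : Antitone (deriv fun r => Real.log (V r)) := by
    intro x y hxy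
    rw [(hg x).deriv, (hg y).deriv]
    exact hanti hxy
  have hc := (hdd.concaveOn_univ_of_deriv fun s => (hg s).differentiableAt).2
    (mem_univ (0 : ℝ)) (mem_univ (1 : ℝ)) (sub_nonneg.2 ht1) ht0 (sub_add_cancel 1 t)
  have h0 : H 0 = a := by funext i; simp [hHdef, geoMean]
  have h1 : H 1 = b := by
    funext i
    simp [hHdef, geoMean, Real.exp_sub, Real.exp_log (ha i), Real.exp_log (hb i),
      mul_div_cancel₀ _ (ha i).ne']
  simp only [smul_eq_mul, mul_zero, mul_one, zero_add, hV, h0, h1] at hc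
  rw [hHdef, geoMean_eq ha hb] at hc
  have hpos : Pos (fun i => a i ^ (1 - t) * b i ^ t) := fun i =>
    mul_pos (Real.rpow_pos_of_pos (ha i) _) (Real.rpow_pos_of_pos (hb i) _)
  rw [Real.rpow_def_of_pos (G.vol_pos a ha), Real.rpow_def_of_pos (G.vol_pos b hb), ← Real.exp_add,
    ← Real.exp_log (G.vol_pos _ hpos), Real.exp_le_exp]
  linarith

lemma isBounded_wulff (f : V3 → ℝ) :
    Bornology.IsBounded {x : V3 | ∀ v : V3, v ⬝ᵥ v = 1 → x ⬝ᵥ v ≤ f v} := by
  refine isBounded_iff_forall_norm_le.2
    ⟨∑ i : Fin 3, (|f (Pi.single i 1)| + |f (-Pi.single i 1)|), fun x hx => ?_⟩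
  refine (pi_norm_le_iff_of_nonneg (Finset.sum_nonneg fun i _ => by positivity)).2 fun i => ?_
  refine le_trans ?_ (Finset.single_le_sum
    (f := fun i => |f (Pi.single i 1)| + |f (-Pi.single i 1)|)
    (fun j _ => by positivity) (Finset.mem_univ i))
  have h1 := (hx (Pi.single i 1) (by simp)).trans (le_abs_self _)
  have h2 := (hx (-Pi.single i 1) (by simp)).trans (le_abs_self _)
  simp only [dotProduct_neg, dotProduct_single_one] at h1 h2
  rw [Real.norm_eq_abs, abs_le]
  constructor <;> linarith [abs_nonneg (f (Pi.single i 1)), abs_nonneg (f (-Pi.single i 1))]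

/-- The logarithmic inequality for bodies from the local inequality at polytopes. -/
theorem logMainSpec : GeomSpec → LocalSpec → LogMainSpec := by
  intro hG hLoc K L hK hL t ht0 ht1
  obtain ⟨e, he, hgood⟩ := exists_normals
  set m : V3 → ℝ := fun v => supportFn K v ^ (1 - t) * supportFn L v ^ t with hm
  have hmc : Continuous m :=
    ((continuous_supportFn hK.1).rpow_const fun _ => Or.inr (sub_nonneg.2 ht1)).mul
      ((continuous_supportFn hL.1).rpow_const fun _ => Or.inr ht0)
  set S : ℕ → Set V3 := fun k => body (fun i : Fin (k + 3) => e i) (fun i => m (e i)) with hS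
  set c := (volume K).toReal ^ (1 - t) * (volume L).toReal ^ t with hc
  have hgp : ∀ k, GenPos (fun i : Fin (k + 3) => e i) := fun k =>
    ⟨by omega, (hgood (k + 3)).2.2⟩
  have hpos : ∀ k, Pos (fun i : Fin (k + 3) => m (e i)) := fun k i =>
    mul_pos (Real.rpow_pos_of_pos (supportFn_pos hK ((hgood (k + 3)).1 i)) _)
      (Real.rpow_pos_of_pos (supportFn_pos hL ((hgood (k + 3)).1 i)) _)
  have hfin : ∀ {k} (h : Fin (k + 3) → ℝ), Pos h →
      volume (body (fun i : Fin (k + 3) => e i) h) ≠ ⊤ := fun {k} h hh htop => by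
    have := (hG _ _ (hgp k)).vol_pos h hh
    rw [vol, htop] at this
    simp at this
  have hineq : ∀ k, c ≤ (volume (S k)).toReal := by
    intro k
    set u : Fin (k + 3) → V3 := fun i => e i
    have ha : Pos (fun i => supportFn K (u i)) := fun i => supportFn_pos hK ((hgood _).1 i)
    have hb : Pos (fun i => supportFn L (u i)) := fun i => supportFn_pos hL ((hgood _).1 i)
    refine le_trans ?_ (segment_ineq (hG _ u (hgp k)) (hLoc _ u (hgp k)) ha hb ht0 ht1)
    have hsub : ∀ {M : Set V3}, IsSymBody M → Pos (fun i => supportFn M (u i)) →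
        (volume M).toReal ≤ vol u (fun i => supportFn M (u i)) := fun {M} hM hP =>
      ENNReal.toReal_mono (hfin _ hP)
        (measure_mono fun x hx i => abs_le_supportFn hM hx (u i))
    exact mul_le_mul (Real.rpow_le_rpow ENNReal.toReal_nonneg (hsub hK ha) (sub_nonneg.2 ht1))
      (Real.rpow_le_rpow ENNReal.toReal_nonneg (hsub hL hb) ht0)
      (Real.rpow_nonneg ENNReal.toReal_nonneg _) (Real.rpow_nonneg ENNReal.toReal_nonneg _)
  have hanti : Antitone S := fun j k hjk x hx i => hx ⟨i, by omega⟩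
  have hfinI : volume (⋂ k, S k) ≠ ⊤ := ne_top_of_le_ne_top (hfin _ (hpos 0))
    (measure_mono (iInter_subset _ 0))
  have hlim : Tendsto (fun k => (volume (S k)).toReal) atTop
      (𝓝 (volume (⋂ k, S k)).toReal) :=
    (ENNReal.tendsto_toReal hfinI).comp (tendsto_measure_iInter_atTop
      (fun k => (isClosed_body _ _).measurableSet.nullMeasurableSet) hanti
      ⟨0, hfin _ (hpos 0)⟩)
  have hsubset : (⋂ k, S k) ⊆ logSum t K L := fun x hx v _ =>
    he.induction_on v (isClosed_le (by fun_prop) hmc) fun k =>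
      (le_abs_self _).trans (Set.mem_iInter.1 hx k ⟨k, by omega⟩)
  refine le_trans ?_ (measure_mono hsubset)
  have hKf : volume K ≠ ⊤ := hK.1.measure_lt_top.ne
  have hLf : volume L ≠ ⊤ := hL.1.measure_lt_top.ne
  refine (ENNReal.toReal_le_toReal (ENNReal.mul_ne_top
    (ENNReal.rpow_ne_top_of_nonneg (sub_nonneg.2 ht1) hKf)
    (ENNReal.rpow_ne_top_of_nonneg ht0 hLf)) hfinI).1 ?_
  rw [ENNReal.toReal_mul, ← ENNReal.toReal_rpow, ← ENNReal.toReal_rpow]
  exact ge_of_tendsto' hlim hineq

end Vale.Agent.P227.Log3
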