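import Vale.Agent.P227.LogBM.Apriori

/-!
# P227 Log3: the local logarithmic Brunn–Minkowski inequality for polytopes in space
-/

namespace Vale.Agent.P227.Log3

open Vale.Agent.P227.Lp3 MeasureTheory Set Filter Finset Matrix
open scoped Topology

variable {N : ℕ} {u : Fin N → V3} {h z : Fin N → ℝ}

lemma dirW_swap (u : Fin N → V3) (j k : Fin N) : dirW u k j = dirW u j k := by
  funext l
  simp only [dirW, det3]
  have : u k ⬝ᵥ crossProduct (u j) (u l) = -(u j ⬝ᵥ crossProduct (u k) (u l)) := by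
    simp [cross_apply, dotProduct, Fin.sum_univ_three]; ring
  rw [this, abs_neg]

section Step

variable (gf : GeomFacts u) (bm : BMFacts u) (df : DirFacts u)

include gf df

/-- The lower bound for the Hessian after shrinking. -/
lemma form2_shrink (hp : Pos h) {j k : Fin N} (hjk : j ≠ k) (hj : 0 < area u h j)
    {f : ℝ} (hzj : z j = f * h j) :
    ∀ᶠ ε in 𝓝[>] (0 : ℝ), form2 u h z z - 2 * f * form2 u h z h + f ^ 2 * form2 u h h h ≤
      form2 u (h + ε • -dirW u j k) z z - 2 * f * form2 u (h + ε • -dirW u j k) z h +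
        f ^ 2 * form2 u (h + ε • -dirW u j k) h h := by
  set d := dirW u j k with hd
  have hp' : Pos (h + (0 : ℝ) • -d) := by simpa using hp
  have h1 := pos_eventually hp (-d)
  have h2 := (hasDerivAt_area_ray gf hp' j).continuousAt.eventually_const_lt
    (show 0 < area u (h + (0 : ℝ) • -d) j by simpa using hj)
  filter_upwards [h1.filter_mono nhdsWithin_le_nhds, h2.filter_mono nhdsWithin_le_nhds,
    self_mem_nhdsWithin] with ε e1 e2 e3
  have e4 : h + ε • -d = h - ε • d := by rw [smul_neg, sub_eq_add_neg]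
  have hw : (z + (-f) • h) j = 0 := by simp [hzj]
  rw [e4] at e1 e2 ⊢
  have := df.form2_mono h hp j k hjk ε (le_of_lt e3) e1 e2 _ hw
  rw [form2_add_self gf hp, form2_add_self gf e1] at this
  linarith

include bm

/-- Below the value one the potential increases when the body shrinks. -/
theorem step (hu : GenPos u) (tau : TauSpec) (hp : Pos h) {κ : ℝ} (hκ : 0 < κ)
    (hlt : tauVal u h < 1) (hκx : 4 * κ ≤ 1 - tauVal u h) :
    ∃ g, Pos g ∧ (∀ i, g i ≤ h i) ∧
      vol u h ^ κ * (1 - tauVal u h) < vol u g ^ κ * (1 - tauVal u g) := by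
  obtain ⟨hx0, -, hle, hex⟩ := tau N u hu h hp
  obtain ⟨z, hz, hF, hvar, h0⟩ := hex hlt
  set x := tauVal u h with hx
  have he := eigen gf hp hle hF h0
  set S := wdot u h z z with hS
  have hvarS : varForm u h z = S := by rw [varForm_eq, hF]; simp [hS]
  have hSpos : 0 < S := hvarS ▸ hvar
  have hH : form2 u h z z = -x * S := he z
  set s : Fin N → ℝ := fun i => z i / h i with hs
  have : Nonempty (Fin N) := ⟨⟨0, by have := hu.1; omega⟩⟩
  obtain ⟨j, -, hjmax⟩ := Finset.univ.exists_max_image s Finset.univ_nonempty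
  obtain ⟨k, -, hkmin⟩ := Finset.univ.exists_min_image s Finset.univ_nonempty
  set M := s j with hM
  set μ := s k with hμ
  have hsle : ∀ i, s i ≤ M := fun i => hjmax i (Finset.mem_univ i)
  have hsge : ∀ i, μ ≤ s i := fun i => hkmin i (Finset.mem_univ i)
  have hzs : ∀ i, z i = s i * h i := fun i => (div_mul_cancel₀ _ (hp i).ne').symm
  have hwnn : ∀ i, 0 ≤ area u h i * h i := fun i => mul_nonneg (gf.area_nonneg h hp i) (hp i).le
  have hF' : ∑ i, area u h i * h i * s i = 0 := by
    rw [← hF]; exact Finset.sum_congr rfl fun i _ => by rw [hzs i]; ring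
  have hS' : S = ∑ i, area u h i * h i * s i ^ 2 := by
    refine Finset.sum_congr rfl fun i _ => ?_
    rw [hzs i]; field_simp [(hp i).ne']
  have hV : ∑ i, area u h i * h i = 3 * vol u h := gf.euler_vol h hp
  have hMpos : 0 < M := by
    by_contra hn
    push Not at hn
    have hall := (Finset.sum_eq_zero_iff_of_nonpos fun i _ =>
      mul_nonpos_of_nonneg_of_nonpos (hwnn i) ((hsle i).trans hn)).1 hF'
    refine hSpos.ne' ?_
    rw [hS']
    exact Finset.sum_eq_zero fun i hi => by rw [pow_two, ← mul_assoc, hall i hi, zero_mul]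
  have hμneg : μ < 0 := by
    by_contra hn
    push Not at hn
    have hall := (Finset.sum_eq_zero_iff_of_nonneg fun i _ =>
      mul_nonneg (hwnn i) (hn.trans (hsge i))).1 hF'
    refine hSpos.ne' ?_
    rw [hS']
    exact Finset.sum_eq_zero fun i hi => by rw [pow_two, ← mul_assoc, hall i hi, zero_mul]
  have hjk : j ≠ k := fun e => by
    have : M = μ := by rw [hM, hμ, e]
    linarith
  have hzj : z j ≠ 0 := fun e => hMpos.ne' (by simp [hM, hs, e])
  have hzk : z k ≠ 0 := fun e => hμneg.ne (by simp [hμ, hs, e])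
  set d := dirW u j k with hd
  obtain ⟨c, hc, -, hVD⟩ := vol_le_dir gf df hu hp hjk
  set D := form1 u h d with hD
  have hvol := gf.vol_pos h hp
  have hDpos : 0 < D := pos_of_mul_pos_right (hvol.trans_le hVD) hc.le
  -- the linear functional of the projection
  set b : Fin N → ℝ := fun i => h i * hv u h d i with hb
  have hb0 : ∀ i, 0 ≤ b i := fun i => mul_nonneg (hp i).le (df.hess_dir h hp j k hjk i)
  have hb1 : ∑ i, b i = 2 * D := by
    rw [← form2_euler gf hp d, form2_comm gf hp, form2_eq]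
  set δ := form2 u h z d with hδ
  have hδb : δ = ∑ i, b i * s i := by
    rw [hδ, form2_eq]
    exact Finset.sum_congr rfl fun i _ => by simp only [hb]; rw [hzs i]; ring
  set Q2 := ∑ i, b i * s i ^ 2 with hQ2
  set M1 := ∑ i, area u h i * d i * s i with hM1
  set M2 := ∑ i, area u h i * d i * s i ^ 2 with hM2
  have hδM : δ = -x * M1 := by
    rw [hδ, he d]
    congr 1
    exact Finset.sum_congr rfl fun i _ => by rw [hzs i]; field_simp [(hp i).ne']
  set fb := δ / (2 * D) with hfb
  have hδfb : δ = 2 * D * fb := by rw [hfb]; field_simp [hDpos.ne']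
  have hfble : fb ≤ M := by
    rw [hfb, div_le_iff₀ (by positivity), hδb, ← hb1, Finset.mul_sum]
    exact Finset.sum_le_sum fun i _ => by
      rw [mul_comm M]; exact mul_le_mul_of_nonneg_left (hsle i) (hb0 i)
  have hfbge : μ ≤ fb := by
    rw [hfb, le_div_iff₀ (by positivity), hδb, ← hb1, Finset.mul_sum]
    exact Finset.sum_le_sum fun i _ => by
      rw [mul_comm μ]; exact mul_le_mul_of_nonneg_left (hsge i) (hb0 i)
  set θ := (fb - μ) / (M - μ) with hθ
  have hMμ : 0 < M - μ := by linarith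
  have hθ0 : 0 ≤ θ := div_nonneg (by linarith) hMμ.le
  have hθ1 : θ ≤ 1 := by rw [hθ, div_le_one hMμ]; linarith
  have hmean : θ * M + (1 - θ) * μ = fb := by rw [hθ]; field_simp; ring
  set E2 := θ * M ^ 2 + (1 - θ) * μ ^ 2 with hE2
  have hE2' : E2 = (M + μ) * fb - M * μ := by rw [← hmean, hE2]; ring
  have hQ : Q2 ≤ 2 * D * E2 := by
    have : ∀ i, b i * s i ^ 2 ≤ (M + μ) * (b i * s i) - M * μ * b i := fun i => by
      have := mul_nonneg (hb0 i) (mul_nonneg (sub_nonneg.2 (hsle i)) (sub_nonneg.2 (hsge i)))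
      linarith
    refine (Finset.sum_le_sum fun i _ => this i).trans (le_of_eq ?_)
    rw [Finset.sum_sub_distrib, ← Finset.mul_sum, ← Finset.mul_sum, ← hδb, hb1, hδfb, hE2']
    ring
  have hCS : 0 ≤ D * M2 - M1 ^ 2 := by
    have h1 : 0 ≤ ∑ i, area u h i * d i * (s i * D - M1) ^ 2 := Finset.sum_nonneg fun i _ =>
      mul_nonneg (mul_nonneg (gf.area_nonneg h hp i) (dirW_nonneg u j k i)) (sq_nonneg _)
    have h2 : ∑ i, area u h i * d i * (s i * D - M1) ^ 2 = D * (D * M2 - M1 ^ 2) := by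
      have : ∀ i, area u h i * d i * (s i * D - M1) ^ 2 =
          D ^ 2 * (area u h i * d i * s i ^ 2) - 2 * D * M1 * (area u h i * d i * s i) +
            M1 ^ 2 * (area u h i * d i) := fun i => by ring
      simp only [this, Finset.sum_add_distrib, Finset.sum_sub_distrib, ← Finset.mul_sum]
      rw [← hM2, ← hM1, show ∑ i, area u h i * d i = D from rfl]
      ring
    exact nonneg_of_mul_nonneg_right (h2 ▸ h1) hDpos
  have hSbd : S ≤ 3 * vol u h * (M * -μ) := by
    have : ∀ i, area u h i * h i * s i ^ 2 ≤ (M + μ) * (area u h i * h i * s i) -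
        M * μ * (area u h i * h i) := fun i => by
      have := mul_nonneg (hwnn i) (mul_nonneg (sub_nonneg.2 (hsle i)) (sub_nonneg.2 (hsge i)))
      linarith
    rw [hS']
    refine (Finset.sum_le_sum fun i _ => this i).trans (le_of_eq ?_)
    rw [Finset.sum_sub_distrib, ← Finset.mul_sum, ← Finset.mul_sum, hF', hV]
    ring
  have hmargin : κ * S < 2 * E2 * vol u h := by
    have hxq : x + x ^ 2 / 2 ≤ 3 / 2 := by
      have := mul_le_mul hlt.le hlt.le hx0 zero_le_one
      linarith [show x ^ 2 = x * x from pow_two x]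
    rcases le_total (-μ) M with hcase | hcase
    · have hap := apriori gf df bm hu hp hx0 hz hF he hzj (fun i => by
        show |s i| ≤ |M|
        rw [abs_of_pos hMpos, abs_le]
        exact ⟨by linarith [hsge i], hsle i⟩)
      change 2 * M ^ 2 * vol u h * (1 - x) ≤ _ at hap
      have h1 := hap.trans ((mul_le_mul_of_nonneg_right hxq hSpos.le).trans
        (mul_le_mul_of_nonneg_left hSbd (by norm_num)))
      have h2 : M * (1 - x) ≤ 9 / 4 * -μ := by
        have hpos : 0 < 2 * M * vol u h := by positivity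
        refine le_of_mul_le_mul_left ?_ hpos
        linarith
      have h3 : μ ^ 2 ≤ E2 := by
        have := mul_nonneg hθ0 (show 0 ≤ M ^ 2 - μ ^ 2 by
          have := pow_le_pow_left₀ (by linarith : 0 ≤ -μ) hcase 2
          rw [neg_sq] at this; linarith)
        linarith [hE2]
      have h4 : 3 * κ * M < 2 * -μ := by
        have := mul_le_mul_of_nonneg_right hκx hMpos.le
        linarith
      have h5 := mul_lt_mul_of_pos_left h4 (mul_pos hvol (neg_pos.2 hμneg))
      have h6 := mul_le_mul_of_nonneg_left hSbd hκ.le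
      have h7 := mul_le_mul_of_nonneg_right h3 hvol.le
      linarith
    · have hap := apriori gf df bm hu hp hx0 hz hF he hzk (fun i => by
        show |s i| ≤ |μ|
        rw [abs_of_neg hμneg, abs_le]
        exact ⟨by linarith [hsge i], by linarith [hsle i]⟩)
      change 2 * μ ^ 2 * vol u h * (1 - x) ≤ _ at hap
      have h1 := hap.trans ((mul_le_mul_of_nonneg_right hxq hSpos.le).trans
        (mul_le_mul_of_nonneg_left hSbd (by norm_num)))
      have h2 : -μ * (1 - x) ≤ 9 / 4 * M := by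
        have hpos : 0 < 2 * -μ * vol u h := mul_pos (by linarith) hvol
        refine le_of_mul_le_mul_left ?_ hpos
        linarith
      have h3 : M ^ 2 ≤ E2 := by
        have := mul_nonneg (sub_nonneg.2 hθ1) (show 0 ≤ μ ^ 2 - M ^ 2 by
          have := pow_le_pow_left₀ hMpos.le hcase 2
          rw [neg_sq] at this; linarith)
        linarith [hE2]
      have h4 : 3 * κ * -μ < 2 * M := by
        have := mul_le_mul_of_nonneg_right hκx (neg_nonneg.2 hμneg.le)
        linarith
      have h5 := mul_lt_mul_of_pos_left h4 (mul_pos hvol hMpos)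
      have h6 := mul_le_mul_of_nonneg_left hSbd hκ.le
      have h7 := mul_le_mul_of_nonneg_right h3 hvol.le
      linarith
  -- the comparison functions
  set p : ℝ → Fin N → ℝ := fun ε => h + ε • -d with hpdef
  have hp0 : p 0 = h := by simp [hpdef]
  have hpp : Pos (h + (0 : ℝ) • -d) := by simpa using hp
  have hposev := pos_eventually hp (-d)
  let K : (Fin N → ℝ) → ℝ → ℝ := fun a ε =>
    2 * form1 u (p ε) a + ε * form2 u (p ε) a d
  have hK : ∀ a, ∀ᶠ ε in 𝓝 (0 : ℝ), form2 u (p ε) a h = K a ε := fun a => by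
    filter_upwards [hposev] with ε hε
    have := form2_euler gf hε a
    simp only [K, hpdef] at *
    rw [form2_add_right] at this
    rw [← this]
    have e : form2 u (h + ε • -d) a (-d) = -form2 u (h + ε • -d) a d := by
      simp [form2, Finset.sum_neg_distrib]
    rw [e]; ring
  have hKd : ∀ a, HasDerivAt (K a) (-form2 u h a d) 0 := fun a => by
    have hc : ContinuousAt (fun ε : ℝ => form2 u (p ε) a d) 0 := by
      simp only [form2, hpdef]
      refine tendsto_finsetSum _ fun i _ => tendsto_finsetSum _ fun l _ => ?_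
      have h1 : ContinuousAt (fun ε : ℝ => hess u (h + ε • -d) i l) 0 :=
        ContinuousAt.comp (g := fun g => hess u g i l) (hess_continuousAt gf hpp i l) (by fun_prop)
      exact (h1.mul continuousAt_const).mul continuousAt_const
    refine (((hasDerivAt_form1_ray gf hpp a).const_mul 2).add
      (hasDerivAt_mul_continuousAt hc)).congr_deriv ?_
    simp only [hp0, zero_smul, add_zero]
    simp [form2, Finset.sum_neg_distrib]
    ring
  let L : ℝ → ℝ := fun ε => form2 u h z z + 2 * fb * K z ε - E2 * (K h ε - 6 * vol u h)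
  have hLd : HasDerivAt L (2 * fb * (-δ) - E2 * (-(2 * D))) 0 := by
    refine ((((hKd z).const_mul (2 * fb)).const_add (form2 u h z z)).sub
      (((hKd h).sub_const (6 * vol u h)).const_mul E2)).congr_deriv ?_
    rw [hδ, form2_comm gf hp h d, form2_euler gf hp, hD]
  let vr : ℝ → ℝ := fun ε => (∑ i, area u (p ε) i * z i ^ 2 / p ε i) -
    form1 u (p ε) z ^ 2 / (3 * vol u (p ε))
  have hvr0 : vr 0 = S := by simp [vr, hp0, hS, wdot_self, hF]
  have hvd : HasDerivAt vr (M2 - Q2) 0 := by
    have h1 : HasDerivAt (fun ε => ∑ i, area u (p ε) i * z i ^ 2 / p ε i) (M2 - Q2) 0 := by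
      have hpi : ∀ i, HasDerivAt (fun ε => p ε i) (-d i) 0 := fun i => by
        simpa [hpdef] using ((hasDerivAt_id (0 : ℝ)).mul_const (-d i)).const_add (h i)
      refine (HasDerivAt.fun_sum fun i _ => ((hasDerivAt_area_ray gf hpp i).mul_const
        (z i ^ 2)).div (hpi i) (by rw [hp0]; exact (hp i).ne')).congr_deriv ?_
      rw [hM2, hQ2, ← Finset.sum_sub_distrib]
      refine Finset.sum_congr rfl fun i _ => ?_
      simp only [hp0, zero_smul, add_zero, hb]
      rw [hzs i, show hv u h (-d) i = -hv u h d i by simp [hv, Finset.sum_neg_distrib]]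
      field_simp [(hp i).ne']; ring
    have h2 : HasDerivAt (fun ε => form1 u (p ε) z ^ 2 / (3 * vol u (p ε))) 0 0 := by
      refine (((hasDerivAt_form1_ray gf hpp z).pow 2).div
        ((hasDerivAt_vol_ray gf hpp).const_mul 3) (by simpa using hvol.ne')).congr_deriv ?_
      simp [hF]
    exact (h1.sub h2).congr_deriv (by ring)
  let J : ℝ → ℝ := fun ε => L ε - 2 * (form1 u (p ε) z ^ 2 / (3 * vol u (p ε))) + vr ε
  have hJd : HasDerivAt J (2 * fb * (-δ) + 2 * E2 * D + (M2 - Q2)) 0 := by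
    have h2 : HasDerivAt (fun ε => form1 u (p ε) z ^ 2 / (3 * vol u (p ε))) 0 0 := by
      refine (((hasDerivAt_form1_ray gf hpp z).pow 2).div
        ((hasDerivAt_vol_ray gf hpp).const_mul 3) (by simpa using hvol.ne')).congr_deriv ?_
      simp [hF]
    exact ((hLd.sub (h2.const_mul 2)).add hvd).congr_deriv (by ring)
  have hJ0 : J 0 = (1 - x) * S := by
    simp only [J, L, K, hp0, hvr0, hF, form1_self gf hp, hH]; ring
  let Ψ : ℝ → ℝ := fun ε => vol u (p ε) ^ κ * (J ε / vr ε)
  have hVd : HasDerivAt (fun ε => vol u (p ε)) (-D) 0 := by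
    refine (hasDerivAt_vol_ray gf hpp).congr_deriv ?_
    simp [form1, hD]
  have hΨd := ((hVd.rpow_const (p := κ) (Or.inl (by rw [hp0]; exact hvol.ne'))).mul
    (hJd.div hvd (by rw [hvr0]; exact hSpos.ne')))
  have hgain : κ * (1 - x) * D * S <
      vol u h * (2 * fb * (-δ) + 2 * E2 * D + x * (M2 - Q2)) := by
    have h1 : (1 - x) * (2 * D * E2) ≤ 2 * fb * (-δ) + 2 * E2 * D + x * (M2 - Q2) := by
      have k1 := mul_le_mul_of_nonneg_left hQ hx0
      have k2 : D * (2 * fb * δ) = x ^ 2 * M1 ^ 2 := by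
        have e : D * (2 * fb * δ) = δ ^ 2 := by rw [hδfb]; ring
        rw [e, hδM]; ring
      have k3 : D * (2 * fb * δ) ≤ D * (x * M2) := by
        rw [k2]
        have k4 := mul_nonneg hx0 (mul_nonneg (sub_nonneg.2 hlt.le) (sq_nonneg M1))
        have k5 := mul_nonneg hx0 hCS
        linarith
      have k6 := le_of_mul_le_mul_left k3 hDpos
      linarith
    have h2 := mul_lt_mul_of_pos_left hmargin (mul_pos (sub_pos.2 hlt) hDpos)
    have h3 := mul_le_mul_of_nonneg_left h1 hvol.le
    linarith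
  have hΨ0 : Ψ 0 = vol u h ^ κ * (1 - x) := by
    simp only [Ψ, hp0, hJ0, hvr0]; field_simp [hSpos.ne']
  have hev : ∀ᶠ ε in 𝓝[>] (0 : ℝ), Ψ 0 < Ψ ε := by
    have hder := hΨd.tendsto_slope_zero_right
    refine (hder.eventually (lt_mem_nhds (?_ : (0 : ℝ) < _))).mp ?_
    · simp only [hp0, hJ0, hvr0, Pi.div_apply]
      rw [Real.rpow_sub hvol, Real.rpow_one]
      have hVk : 0 < vol u h ^ κ := Real.rpow_pos_of_pos hvol κ
      have hfin : -D * κ * (vol u h ^ κ / vol u h) * ((1 - x) * S / S) +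
          vol u h ^ κ * (((2 * fb * -δ + 2 * E2 * D + (M2 - Q2)) * S - (1 - x) * S * (M2 - Q2)) /
            S ^ 2) = vol u h ^ κ / (vol u h * S) *
            (vol u h * (2 * fb * (-δ) + 2 * E2 * D + x * (M2 - Q2)) - κ * (1 - x) * D * S) := by
        field_simp; ring
      rw [hfin]
      exact mul_pos (by positivity) (by linarith)
    · filter_upwards [self_mem_nhdsWithin] with ε hε hs'
      simp only [zero_add, smul_eq_mul] at hs'
      exact sub_pos.1 (pos_of_mul_pos_right hs' (inv_nonneg.2 (le_of_lt hε)))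
  have hvpos : ∀ᶠ ε in 𝓝 (0 : ℝ), 0 < vr ε :=
    hvd.continuousAt.eventually_const_lt (by rw [hvr0]; exact hSpos)
  have haj : 0 < area u h j := area_pos_of_ne gf hp hz hzj
  have hak : 0 < area u h k := area_pos_of_ne gf hp hz hzk
  have m1 := form2_shrink gf df hp hjk haj (z := z) (f := M) (hzs j)
  have m2 := form2_shrink gf df hp hjk.symm hak (z := z) (f := μ) (hzs k)
  rw [dirW_swap] at m2
  obtain ⟨ε, hΨ, hεp, hεv, hKz, hKh, hm1, hm2, hεpos⟩ :=
    (hev.and ((hposev.filter_mono nhdsWithin_le_nhds).and ((hvpos.filter_mono nhdsWithin_le_nhds).and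
      (((hK z).filter_mono nhdsWithin_le_nhds).and (((hK h).filter_mono nhdsWithin_le_nhds).and
        (m1.and (m2.and self_mem_nhdsWithin))))))).exists
  refine ⟨p ε, hεp, fun i => ?_, ?_⟩
  · have := mul_nonneg (le_of_lt hεpos) (dirW_nonneg u j k i)
    simp only [hpdef, hd, Pi.add_apply, Pi.smul_apply, Pi.neg_apply, smul_eq_mul]
    linarith
  obtain ⟨-, -, hleε, -⟩ := tau N u hu (p ε) hεp
  set x' := tauVal u (p ε) with hx'
  have hr := hleε z
  have hform : L ε ≤ form2 u (p ε) z z := by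
    change form2 u h z z + 2 * fb * K z ε - E2 * (K h ε - 6 * vol u h) ≤ _
    rw [← hKz, ← hKh]
    have hzh : form2 u h z h = 0 := by rw [form2_euler gf hp, hF, mul_zero]
    rw [hzh, form2_self gf hp] at hm1 hm2
    have k1 := mul_le_mul_of_nonneg_left hm1 hθ0
    have k2 := mul_le_mul_of_nonneg_left hm2 (sub_nonneg.2 hθ1)
    rw [← hmean, hE2]
    simp only [hpdef, hd] at k1 k2 ⊢
    linarith
  have hvr : varForm u (p ε) z = vr ε := rfl
  simp only [rForm, hvr] at hr
  have hJε : J ε / vr ε ≤ 1 - x' := by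
    rw [div_le_iff₀ hεv]
    simp only [J]
    linarith [show 2 * form1 u (p ε) z ^ 2 / (3 * vol u (p ε)) =
      2 * (form1 u (p ε) z ^ 2 / (3 * vol u (p ε))) by ring]
  calc vol u h ^ κ * (1 - x) = Ψ 0 := hΨ0.symm
    _ < Ψ ε := hΨ
    _ ≤ vol u (p ε) ^ κ * (1 - x') :=
      mul_le_mul_of_nonneg_left hJε (Real.rpow_nonneg (gf.vol_pos _ hεp).le _)

end Step

/-- The local logarithmic Brunn–Minkowski inequality for polytopes in general position. -/
theorem localSpec : GeomSpec → BMSpec → TauSpec → DirSpec → LocalSpec := by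
  intro geo bms tau dir N u hu h hp z
  have gf := geo N u hu
  have bm := bms N u hu
  have df := dir N u hu
  obtain ⟨ht0, ht1, htle, -⟩ := tau N u hu h hp
  rcases ht1.eq_or_lt with e | hlt
  · have := htle z; rwa [e] at this
  exfalso
  set τ0 := tauVal u h with hτ0
  set κ := (1 - τ0) / 4 with hκ
  have hκ0 : 0 < κ := by rw [hκ]; linarith
  set Φ : (Fin N → ℝ) → ℝ := fun g => vol u g ^ κ * (1 - tauVal u g) with hΦ
  set Ω : Set (Fin N → ℝ) := {g | Pos g ∧ (∀ i, g i ≤ h i) ∧ Φ h ≤ Φ g} with hΩ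
  have hne : (Φ '' Ω).Nonempty := ⟨Φ h, h, ⟨hp, fun i => le_rfl, le_rfl⟩, rfl⟩
  have hV0 := gf.vol_pos h hp
  have hbdd : BddAbove (Φ '' Ω) := ⟨vol u h ^ κ, by
    rintro _ ⟨g, ⟨hg, hgh, -⟩, rfl⟩
    obtain ⟨a0, -, -, -⟩ := tau N u hu g hg
    have h1 := Real.rpow_le_rpow (gf.vol_pos g hg).le (gf.vol_mono g h hg hgh) hκ0.le
    have h2 := Real.rpow_nonneg (gf.vol_pos g hg).le κ
    have h3 := mul_nonneg h2 a0
    simp only [hΦ]; linarith⟩
  obtain ⟨v, -, hvlim, hvmem⟩ := exists_seq_tendsto_sSup hne hbdd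
  choose g hg hgv using hvmem
  set c0 := vol u h * (1 - τ0) ^ κ⁻¹ with hc0
  have hc0pos : 0 < c0 := mul_pos hV0 (Real.rpow_pos_of_pos (by linarith) _)
  have hfacts : ∀ n, c0 ≤ vol u (g n) ∧ tauVal u (g n) ≤ τ0 := by
    intro n
    obtain ⟨hgp, hgh, hΦn⟩ := hg n
    obtain ⟨a0, a1, -, -⟩ := tau N u hu (g n) hgp
    have hv := gf.vol_pos _ hgp
    have hpow : vol u (g n) ^ κ ≤ vol u h ^ κ :=
      Real.rpow_le_rpow hv.le (gf.vol_mono _ h hgp hgh) hκ0.le
    simp only [hΦ, ← hτ0] at hΦn
    have h3 : tauVal u (g n) ≤ τ0 := by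
      by_contra hcon
      push Not at hcon
      have k1 := mul_le_mul_of_nonneg_right hpow (sub_nonneg.2 a1)
      have k2 := mul_lt_mul_of_pos_left hcon (Real.rpow_pos_of_pos hV0 κ)
      linarith
    refine ⟨?_, h3⟩
    have h4 : c0 ^ κ ≤ vol u (g n) ^ κ := by
      rw [hc0, Real.mul_rpow hV0.le (Real.rpow_nonneg (by linarith) _),
        ← Real.rpow_mul (by linarith), inv_mul_cancel₀ hκ0.ne', Real.rpow_one]
      have := mul_nonneg (Real.rpow_nonneg hv.le κ) a0
      linarith
    exact (Real.rpow_le_rpow_iff hc0pos.le hv.le hκ0).1 h4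
  have hbox : ∀ i, ∃ c : ℝ, 0 < c ∧ ∀ n, c ≤ g n i := by
    intro i
    obtain ⟨p, hpi, -⟩ := exists_ne_ne hu i i
    obtain ⟨q, hqi, hqp⟩ := exists_ne_ne hu i p
    obtain ⟨C, hC⟩ := gf.vol_le_box i p q hpi.symm hqi.symm hqp.symm
    have hCpos : 0 < C := by
      have h1 := (gf.vol_pos h hp).trans_le (hC h hp)
      exact pos_of_mul_pos_left h1 (mul_pos (mul_pos (hp i) (hp p)) (hp q)).le
    refine ⟨c0 / (C * (h p * h q)), div_pos hc0pos (mul_pos hCpos (mul_pos (hp p) (hp q))),
      fun n => ?_⟩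
    obtain ⟨hgp, hgh, -⟩ := hg n
    rw [div_le_iff₀ (mul_pos hCpos (mul_pos (hp p) (hp q)))]
    refine ((hfacts n).1.trans (hC _ hgp)).trans (le_of_le_of_eq ?_ (by ring :
      C * (g n i * h p * h q) = g n i * (C * (h p * h q))))
    exact mul_le_mul_of_nonneg_left (mul_le_mul (mul_le_mul_of_nonneg_left (hgh p) (hgp i).le)
      (hgh q) (hgp q).le (mul_nonneg (hgp i).le (hp p).le)) hCpos.le
  choose cl hcl hclg using hbox
  set c1 := 4 / 3 * ((1 - τ0) * c0) with hc1
  have hc1pos : 0 < c1 := by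
    have := mul_pos (sub_pos.2 hlt) hc0pos
    positivity
  -- normalised eigenvectors
  have hvec : ∀ n, ∃ y : Fin N → ℝ, (∀ i, |y i| ≤ h i) ∧ form1 u (g n) y = 0 ∧
      form2 u (g n) y y + tauVal u (g n) * wdot u (g n) y y = 0 ∧ c1 ≤ wdot u (g n) y y := by
    intro n
    obtain ⟨hgp, hgh, -⟩ := hg n
    obtain ⟨hcn, htn⟩ := hfacts n
    obtain ⟨a0, -, ale, aex⟩ := tau N u hu (g n) hgp
    obtain ⟨y, hy0, hyF, hyv, hyR⟩ := aex (htn.trans_lt hlt)
    have he := eigen gf hgp ale hyF hyR
    have : Nonempty (Fin N) := ⟨⟨0, by have := hu.1; omega⟩⟩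
    obtain ⟨j, -, hjmax⟩ := Finset.univ.exists_max_image (fun i => |y i / g n i|)
      Finset.univ_nonempty
    set m := y j / g n j with hm
    have hS : 0 < wdot u (g n) y y := by rw [varForm_eq, hyF] at hyv; simpa using hyv
    have hm0 : m ≠ 0 := by
      intro e
      refine hS.ne' (Finset.sum_eq_zero fun i _ => ?_)
      have := hjmax i (Finset.mem_univ i)
      rw [e, abs_zero, abs_nonpos_iff, div_eq_zero_iff] at this
      rcases this with h' | h'
      · simp [h']
      · exact absurd h' (hgp i).ne'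
    have hyj : y j ≠ 0 := fun e => hm0 (by simp [hm, e])
    have hap := apriori gf df bm hu hgp a0 hy0 hyF he hyj fun i => hjmax i (Finset.mem_univ i)
    refine ⟨m⁻¹ • y, fun i => ?_, ?_, ?_, ?_⟩
    · have := hjmax i (Finset.mem_univ i)
      rw [abs_div, abs_of_pos (hgp i), div_le_iff₀ (hgp i)] at this
      simp only [Pi.smul_apply, smul_eq_mul, inv_mul_eq_div, abs_div]
      rw [div_le_iff₀ (abs_pos.2 hm0)]
      calc |y i| ≤ |m| * g n i := this
        _ ≤ h i * |m| := by rw [mul_comm]; exact mul_le_mul_of_nonneg_right (hgh i) (abs_nonneg m)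
    · have : form1 u (g n) (m⁻¹ • y) = m⁻¹ * form1 u (g n) y := by
        simp only [form1, Pi.smul_apply, smul_eq_mul, Finset.mul_sum]
        exact Finset.sum_congr rfl fun i _ => by ring
      rw [this, hyF, mul_zero]
    · have e0 := he y
      have e1 := form2_add_self gf hgp 0 y m⁻¹
      have e2 := wdot_add_self u (g n) 0 y m⁻¹
      simp [form2, wdot] at e1 e2
      simp [form2, wdot] at e0 ⊢
      rw [e1, e2, e0]; ring
    · have e2 := wdot_add_self u (g n) 0 y m⁻¹
      rw [zero_add] at e2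
      have : wdot u (g n) (m⁻¹ • y) (m⁻¹ • y) = m⁻¹ ^ 2 * wdot u (g n) y y := by
        rw [e2]; simp [wdot]
      rw [this, inv_pow, inv_mul_eq_div, le_div_iff₀ (by positivity)]
      set x := tauVal u (g n) with hx
      have k1 : x + x ^ 2 / 2 ≤ 3 / 2 := by
        have h1 : x ≤ 1 := by linarith
        have := mul_le_mul h1 h1 a0 zero_le_one
        linarith [show x ^ 2 = x * x from pow_two x]
      have k2 := mul_le_mul_of_nonneg_right k1 hS.le
      have k3 : (1 - τ0) * c0 ≤ (1 - x) * vol u (g n) :=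
        mul_le_mul (by linarith) hcn hc0pos.le (by linarith)
      have k4 := mul_le_mul_of_nonneg_left k3 (sq_nonneg m)
      simp only [hc1]
      linarith
  choose y hyb hyF hyR hyS using hvec
  -- a convergent subsequence
  have hK : IsCompact (Icc cl h ×ˢ (Icc (-h) h ×ˢ Icc (0 : ℝ) τ0)) :=
    isCompact_Icc.prod (isCompact_Icc.prod isCompact_Icc)
  obtain ⟨⟨g', z', τ'⟩, hmem, φ, hφ, hlim⟩ := hK.tendsto_subseq
    (x := fun n => (g n, y n, tauVal u (g n))) fun n =>
      ⟨⟨fun i => hclg i n, (hg n).2.1⟩, ⟨fun i => (abs_le.1 (hyb n i)).1,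
        fun i => (abs_le.1 (hyb n i)).2⟩, (tau N u hu _ (hg n).1).1, (hfacts n).2⟩
  obtain ⟨⟨hgl, hgu⟩, -, -, hτ'⟩ := hmem
  have hp' : Pos g' := fun i => (hcl i).trans_le (hgl i)
  have lg : Tendsto (fun n => g (φ n)) atTop (𝓝 g') := (continuous_fst.tendsto _).comp hlim
  have lz : Tendsto (fun n => y (φ n)) atTop (𝓝 z') :=
    ((continuous_fst.comp continuous_snd).tendsto _).comp hlim
  have lt' : Tendsto (fun n => tauVal u (g (φ n))) atTop (𝓝 τ') :=
    ((continuous_snd.comp continuous_snd).tendsto _).comp hlim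
  have lgi : ∀ i, Tendsto (fun n => g (φ n) i) atTop (𝓝 (g' i)) := fun i =>
    ((continuous_apply i).tendsto _).comp lg
  have lzi : ∀ i, Tendsto (fun n => y (φ n) i) atTop (𝓝 (z' i)) := fun i =>
    ((continuous_apply i).tendsto _).comp lz
  have lA : ∀ i, Tendsto (fun n => area u (g (φ n)) i) atTop (𝓝 (area u g' i)) := fun i =>
    (area_continuousAt gf hp' i).tendsto.comp lg
  have lF : Tendsto (fun n => form1 u (g (φ n)) (y (φ n))) atTop (𝓝 (form1 u g' z')) :=
    tendsto_finsetSum _ fun i _ => (lA i).mul (lzi i)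
  have lS : Tendsto (fun n => wdot u (g (φ n)) (y (φ n)) (y (φ n))) atTop
      (𝓝 (wdot u g' z' z')) :=
    tendsto_finsetSum _ fun i _ => (((lA i).mul (lzi i)).mul (lzi i)).div (lgi i) (hp' i).ne'
  have lH : Tendsto (fun n => form2 u (g (φ n)) (y (φ n)) (y (φ n))) atTop
      (𝓝 (form2 u g' z' z')) :=
    tendsto_finsetSum _ fun i _ => tendsto_finsetSum _ fun l _ =>
      ((((hess_continuousAt gf hp' i l).tendsto.comp lg)).mul (lzi i)).mul (lzi l)
  have hF' : form1 u g' z' = 0 := tendsto_nhds_unique lF (by simp [hyF])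
  have hS' : 0 < wdot u g' z' z' := hc1pos.trans_le (ge_of_tendsto' lS fun n => hyS _)
  have hR' : form2 u g' z' z' + τ' * wdot u g' z' z' = 0 :=
    tendsto_nhds_unique (lH.add (lt'.mul lS)) (by simp [hyR])
  obtain ⟨-, -, hle', -⟩ := tau N u hu g' hp'
  have hτle : tauVal u g' ≤ τ' := by
    have h1 := hle' z'
    simp only [rForm, varForm_eq, hF'] at h1
    norm_num at h1
    by_contra hcon
    push Not at hcon
    have := mul_lt_mul_of_pos_right hcon hS'
    linarith
  have hVlim : Tendsto (fun n => vol u (g (φ n))) atTop (𝓝 (vol u g')) :=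
    (gf.vol_fderiv g' hp').continuousAt.tendsto.comp lg
  have hΦlim : Tendsto (fun n => Φ (g (φ n))) atTop (𝓝 (vol u g' ^ κ * (1 - τ'))) :=
    (hVlim.rpow_const (Or.inr hκ0.le)).mul (tendsto_const_nhds.sub lt')
  have hsup : sSup (Φ '' Ω) = vol u g' ^ κ * (1 - τ') := by
    refine tendsto_nhds_unique (hvlim.comp hφ.tendsto_atTop) ?_
    simpa [Function.comp_def, hgv] using hΦlim
  have hlt' : tauVal u g' < 1 := by linarith
  obtain ⟨gn, hgn, hgnle, hstep⟩ := step gf bm df hu tau hp' hκ0 hlt' (by linarith)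
  have hbig : sSup (Φ '' Ω) < Φ gn := by
    have h1 := mul_le_mul_of_nonneg_left hτle
      (Real.rpow_nonneg (gf.vol_pos g' hp').le κ)
    rw [hsup]
    simp only [hΦ]
    linarith
  have h0le : Φ h ≤ sSup (Φ '' Ω) := le_csSup hbdd ⟨h, ⟨hp, fun i => le_rfl, le_rfl⟩, rfl⟩
  have := le_csSup hbdd ⟨gn, ⟨hgn, fun i => (hgnle i).trans (hgu i), (h0le.trans hbig.le)⟩, rfl⟩
  linarith

end Vale.Agent.P227.Log3
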