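import Vale.Agent.P227.Lp3.Spec

/-!
# P227: the logarithmic Brunn–Minkowski inequality in `ℝ³`: interfaces

The method is in `notes/P227_LOG3.md`.  It reuses `GeomSpec`, `BMSpec` and `TauSpec` of `Lp3`.
No result may keep one of these as a hypothesis.
-/

namespace Vale.Agent.P227.Log3

open Vale.Agent.P227.Lp3 MeasureTheory Set Filter Finset Matrix
open scoped Topology

variable {N : ℕ}

/-- Support numbers of the segment orthogonal to the normals `j` and `k`. -/
def dirW (u : Fin N → V3) (j k : Fin N) (l : Fin N) : ℝ := |det3 (u j) (u k) (u l)|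

/-! ### `Dir.lean` -/

/-- Two facts on shrinking by the segment orthogonal to two normals. -/
structure DirFacts (u : Fin N → V3) : Prop where
  /-- The volume removed is monotone in the support numbers. -/
  hess_dir : ∀ h, Pos h → ∀ j k, j ≠ k → ∀ i, 0 ≤ ∑ l, hess u h i l * dirW u j k l
  /-- Perturbations keeping the active pair `j` fixed see the Hessian increase. -/
  form2_mono : ∀ h, Pos h → ∀ j k, j ≠ k → ∀ ε : ℝ, 0 ≤ ε → Pos (h - ε • dirW u j k) →
    0 < area u (h - ε • dirW u j k) j → ∀ w : Fin N → ℝ, w j = 0 →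
      form2 u h w w ≤ form2 u (h - ε • dirW u j k) w w

/-- `dirFacts`. -/
def DirSpec : Prop := ∀ (N : ℕ) (u : Fin N → V3), GenPos u → DirFacts u

/-! ### `Local.lean` -/

/-- The local logarithmic Brunn–Minkowski inequality for polytopes. -/
def LocalSpec : Prop :=
  ∀ (N : ℕ) (u : Fin N → V3), GenPos u → ∀ h : Fin N → ℝ, Pos h →
    ∀ z, rForm u 1 h z ≤ 0

/-! ### `Global.lean` -/

/-- The Wulff body of the geometric mean of the two support functions on the sphere. -/
noncomputable def logSum (t : ℝ) (K L : Set V3) : Set V3 :=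
  {x | ∀ v : V3, v ⬝ᵥ v = 1 → x ⬝ᵥ v ≤ supportFn K v ^ (1 - t) * supportFn L v ^ t}

/-- The logarithmic Brunn–Minkowski inequality in space. -/
def LogMainSpec : Prop :=
  ∀ K L : Set V3, IsSymBody K → IsSymBody L → ∀ t : ℝ, 0 ≤ t → t ≤ 1 →
    volume K ^ (1 - t) * volume L ^ t ≤ volume (logSum t K L)

end Vale.Agent.P227.Log3
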